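import Vale.Agent.P092.H368.SN.Orb
import Vale.Agent.P092.H790.OrbG
import Vale.Agent.P092.H103.PicI

/-!
P092 (helper368), TEAM N, block [N-ORB]: `CTA.ORBG` for both legs of the frame model (`H34/PicD`),
for a lattice `Γ` in an arbitrary locally compact second countable group `E`.
-/

set_option linter.all false

open scoped InnerProductSpace ENNReal
open Set Filter Topology MeasureTheory ContinuousLinearMap

namespace Vale.Agent.P092.H368.SN

open Vale.Agent.P092.H790 Vale.Agent.P092.H85 Vale.Agent.P092.H160 Vale.Agent.P092.H103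
open Vale.Agent.P092.SR Vale.Agent.P092.H839
open Vale.Agent.P092.RC (Cm TRN KK pic lam₁ lam₂ XX Om)
open Vale.Agent.P092.H790.CTA (ORBG)

/-- link with `H790.OrbG.EXPG` -/
theorem Spr.expg {E P : Type} [Group E] [TopologicalSpace E] [NormedAddCommGroup P]
    [MeasurableSpace P] {μ : Measure P} {b : E} {n : P → E} {ρ : ℝ} (h : Spr μ b n ρ) :
    ∀ C : Set E, IsCompact C → ∃ c : ℝ, ∀ (N : ℕ) (s₀ : P),
      μ ({s | b ^ N * n s * (n s₀)⁻¹ * (b ^ N)⁻¹ ∈ C} ∩ Metric.closedBall 0 1) ≤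
        ENNReal.ofReal (c * ρ ^ N) := by
  intro C hC
  obtain ⟨c, hc⟩ := h C hC
  refine ⟨c, fun N s₀ => (measure_mono ?_).trans (hc N s₀)⟩
  rintro s ⟨hs, -⟩
  have e : b ^ N * n s * (b ^ N * n s₀)⁻¹ = b ^ N * n s * (n s₀)⁻¹ * (b ^ N)⁻¹ := by
    rw [mul_inv_rev]
    simp only [mul_assoc]
  change b ^ N * n s * (b ^ N * n s₀)⁻¹ ∈ C
  rw [e]
  exact hs

section orb

variable {E : Type} [Group E] [TopologicalSpace E] [IsTopologicalGroup E] [LocallyCompactSpace E]
  [SecondCountableTopology E] [T2Space E] [MeasurableSpace E] [BorelSpace E]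
  {Γ : Subgroup E} [DiscreteTopology Γ] [MeasurableSpace (E ⧸ Γ)] [BorelSpace (E ⧸ Γ)]
  {ν : Measure (E ⧸ Γ)} [IsProbabilityMeasure ν] [Countable Γ]
  (hν : ∀ g : E, ν.map (fun x => g • x) = ν)
  {Λ : Type} [Group Λ] {α : Γ →* (Ell2 Λ →L[ℂ] Ell2 Λ)} (hα : Frame α)
  {P : Type} [NormedAddCommGroup P] [ProperSpace P] [MeasurableSpace P] [BorelSpace P]
  {μ : Measure P} [IsFiniteMeasureOnCompacts μ] {b : E} {n : P → E} {ρ : ℝ}

/-- **(ORB), leg 1 of the frame model, any group.** -/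
theorem orbE₁ (hn : Continuous n) (hs : Spr μ b n ρ) :
    ORBG μ b n ρ (pic hν hα) (lam₁ ν α) (XX ν Λ ∪ Set.range (lam₂ ν α)) (Om ν Λ) :=
  orbg_of hν (adj_VV hα) hn hs (fun A hA => Or.inl ⟨A, hA, rfl⟩) (T := fun s => RR₂ α s)
    (fun s => Or.inr ⟨s, rfl⟩) norm_dl_one (d := fun k => RR₁ α k (dl 1))
    (fun k => con_cst (RR₁ α k) (dl 1)) (orth_VR₂ hα) (pars₁ hα) fun T hT => trn_adj₁ hα hT

/-- **(ORB), leg 2 of the frame model, any group.** -/
theorem orbE₂ (hn : Continuous n) (hs : Spr μ b n ρ) :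
    ORBG μ b n ρ (pic hν hα) (lam₂ ν α) (XX ν Λ ∪ Set.range (lam₁ ν α)) (Om ν Λ) :=
  orbg_of hν (adj_VV hα) hn hs (fun A hA => Or.inl ⟨A, hA, rfl⟩) (T := fun s => RR₁ α s)
    (fun s => Or.inr ⟨s, rfl⟩) norm_dl_one (d := fun k => RR₂ α k (dl 1))
    (fun k => con_cst (RR₂ α k) (dl 1)) (orth_VR₁ hα) (pars₂ hα) fun T hT => trn_adj₂ hα hT

end orb

/-! ### The type 1 wall of `SL_n(k)` -/

section wall

variable {k : Type} [Field k] {ι : Type} [Fintype ι] [DecidableEq ι]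

/-- the exponents of the wall element of the coordinate point `i`: `w^{-(n-1)}` at `i`, `w`
elsewhere -/
def wdg (i : ι) (w : kˣ) : ι → k := fun x =>
  if x = i then ((w⁻¹ : kˣ) : k) ^ (Fintype.card ι - 1) else (w : k)

theorem prod_wdg (i : ι) (w : kˣ) : ∏ x, wdg i w x = 1 := by
  have h1 : ((w⁻¹ : kˣ) : k) * (w : k) = 1 := by rw [← Units.val_mul]; simp
  rw [← Finset.mul_prod_erase Finset.univ _ (Finset.mem_univ i)]
  have h2 : ∏ x ∈ Finset.univ.erase i, wdg i w x = (w : k) ^ (Fintype.card ι - 1) := by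
    rw [← Finset.card_univ, ← Finset.card_erase_of_mem (Finset.mem_univ i), ← Finset.prod_const]
    refine Finset.prod_congr rfl fun x hx => ?_
    rw [wdg, if_neg (Finset.ne_of_mem_erase hx)]
  rw [h2, wdg, if_pos rfl, ← mul_pow, h1, one_pow]

/-- the wall element of the coordinate point `i` -/
def wl (i : ι) (w : kˣ) : Matrix.SpecialLinearGroup ι k :=
  ⟨Matrix.diagonal (wdg i w), by rw [Matrix.det_diagonal, prod_wdg]⟩

theorem wl_coe (i : ι) (w : kˣ) : (wl i w).1 = Matrix.diagonal (wdg i w) := rfl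

/-- the factor between the two weights -/
theorem wdg_ratio {i j : ι} (hij : i ≠ j) (w : kˣ) :
    wdg i w i = (((w ^ Fintype.card ι)⁻¹ : kˣ) : k) * wdg i w j := by
  have h1 : ((w⁻¹ : kˣ) : k) * (w : k) = 1 := by rw [← Units.val_mul]; simp
  have h0 : 0 < Fintype.card ι := Fintype.card_pos_iff.2 ⟨i⟩
  rw [wdg, if_pos rfl, wdg, if_neg hij.symm, ← inv_pow, Units.val_pow_eq_pow_val]
  obtain ⟨m, hm⟩ : ∃ m, Fintype.card ι = m + 1 := ⟨Fintype.card ι - 1, by omega⟩
  rw [hm, Nat.add_sub_cancel, pow_succ, mul_assoc, h1, mul_one]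

end wall

section wallorb

variable {k : Type} [NontriviallyNormedField k] [ProperSpace k] [MeasurableSpace k] [BorelSpace k]
  {μ : Measure k} [μ.IsAddHaarMeasure] {ι : Type} [Fintype ι] [DecidableEq ι] {i j : ι}

/-- rate of the type 1 wall: `md w ^ n` -/
theorem spr_wl (hij : i ≠ j) (w : kˣ) :
    Spr μ (wl i w) (tv hij) (md w ^ Fintype.card ι) := by
  rw [← md_pow]
  exact spr_sl hij (wl_coe i w) (w ^ Fintype.card ι) (wdg_ratio hij w)

/-- the same in a group `E` under a homomorphism with relatively compact preimages of compact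
sets -/
theorem spr_wl_map {E : Type} [Group E] [TopologicalSpace E]
    {p : Matrix.SpecialLinearGroup ι k →* E}
    (hp : ∀ C : Set E, IsCompact C → ∃ C' : Set (Matrix.SpecialLinearGroup ι k),
      IsCompact C' ∧ p ⁻¹' C ⊆ C') (hij : i ≠ j) (w : kˣ) :
    Spr μ (p (wl i w)) (fun s => p (tv hij s)) (md w ^ Fintype.card ι) := by
  rw [← md_pow]
  exact spr_map hp hij (wl_coe i w) (w ^ Fintype.card ι) (wdg_ratio hij w)

omit [MeasurableSpace k] [BorelSpace k] in
theorem rate_pos (w : kˣ) (n : ℕ) : 0 < md w ^ n := pow_pos (md_pos w) n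

omit [MeasurableSpace k] [BorelSpace k] in
theorem rate_lt_one {w : kˣ} (hw : ‖(w : k)‖ < 1) {n : ℕ} (hn : n ≠ 0) : md w ^ n < 1 :=
  pow_lt_one₀ (md_nonneg w) (md_lt_one hw) hn

end wallorb

end Vale.Agent.P092.H368.SN
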