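import Vale.Agent.P092.H859.CNE

/-!
P092 (helper368), Team N, blocks [N-DICHO], [N-ENG] without a duality of the source group: two
homogeneous spaces `Z₁ = E / P₁` (conjugates of `b`) and `Z₂ = E / P₂` (conjugates of `b⁻¹`). The
Moore property is only asked of `N ∪ L` (`N` contracted by `b`, `L` commuting with `b`), so the
source may be a product.
-/

set_option linter.all false

open scoped InnerProductSpace Pointwise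
open Filter Topology ContinuousLinearMap TopologicalSpace

namespace Vale.Agent.P092.H368.SN

open Vale.Agent.P092.H859.CL
open Vale.Agent.P092.H859.CN
open Vale.Agent.P092.H43 (Loc2)
open Vale.Agent.P092.RC (Pic Moore)
open Vale.Agent.P092.H76.Dicho (leg_of_pic inv_of_pic erg_of_pic)

section sets

variable {E : Type} [Group E] [TopologicalSpace E]

/-- the elements contracted by conjugation by the powers of `b` -/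
def Ctr (b : E) : Set E := {n | Tendsto (fun i : ℕ => b ^ i * n * (b ^ i)⁻¹) atTop (𝓝 1)}

/-- the elements commuting with `b` -/
def Cen (b : E) : Set E := {v | Commute b v}

theorem mem_ctr_inv {b n : E} :
    n ∈ Ctr b⁻¹ ↔ Tendsto (fun i : ℕ => (b ^ i)⁻¹ * n * b ^ i) atTop (𝓝 1) := by
  unfold Ctr
  simp only [Set.mem_setOf_eq, inv_pow, inv_inv]

end sets

section dicho

variable {Γ D K Y : Type} [Group Γ] [Group D] [TopologicalSpace D] [NormedAddCommGroup K]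
  [InnerProductSpace ℂ K]
  [CompleteSpace K] {mp : (Γ → ℝ) → (K →L[ℂ] K)} {Bd : Set K}
  {ms : D → Set Γ → ℝ} {A : Subgroup D} {Br : ℝ → Set Γ} {G1 G2 H1 H2 : Γ → ℝ} {bp : Γ → Y}
  {W : Set (K →L[ℂ] K)} {Ω : K} [TopologicalSpace Y] [CompactSpace Y] [MulAction Γ Y]
  {π : D →* (K →L[ℂ] K)} {lam : Γ →* (K →L[ℂ] K)}

/-- **[N-DICHO] for a picture**, along the powers of `b`; Moore property of `N ∪ L`, `N' ∪ L`. -/
theorem dicho_picE (hP : Pic π lam W Ω) {b : D} (h : SysF mp π Bd ms A Br G1 G2)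
    (hG : GeoF Br G1 G2 bp)
    (hcov : ∀ γ (F : Γ → ℝ), (∀ g, |F g| ≤ 1) → lam γ * mp F * lam γ⁻¹ = mp (fun g => F (γ⁻¹ * g)))
    (hWm : ∀ w ∈ W, ∀ F : Γ → ℝ, (∀ g, |F g| ≤ 1) → w * mp F = mp F * w) (hS : Slow mp π Bd)
    (he : Esc (st mp) π Bd A (pw b)) (he' : Esc (st mp) π Bd A (pw b⁻¹))
    (hLU : LU1 mp π G1 G2 (pw b)) (hLU' : LU1 mp π G1 G2 (pw b⁻¹))
    (hp : Pos (st mp) π G2 H2 (pw b)) (hp' : Pos (st mp) π G2 H2 (pw b⁻¹))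
    (hsy : Sym mp π Ω) {C : ℝ} (hC : Gaps G1 G2 H1 H2 C)
    (hNI : H76.Pur.NIS (fun (γ : Γ) (y : Y) => γ • y))
    (hM : Moore (Ctr b ∪ Cen b)) (hM' : Moore (Ctr b⁻¹ ∪ Cen b))
    (hcl : Subgroup.closure (Ctr b ∪ Ctr b⁻¹ ∪ Cen b) = ⊤) :
    (Full (st mp) π G1 G2 (pw b) ∧ Full (st mp) π H1 H2 (pw b⁻¹)) ∨
      (Full (st mp) π H1 H2 (pw b) ∧ Full (st mp) π G1 G2 (pw b⁻¹)) := by
  have e := pw_map_inv b
  have h1 := dicho (l := pw b) (Q := Ctr b ∪ Cen b) (Q' := Ctr b⁻¹ ∪ Cen b) h hG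
    (leg_of_pic hP hcov hWm) hS he
    (by rw [e]; exact he') hLU (by rw [e]; exact hLU') hp (by rw [e]; exact hp') hsy hC hP.nΩ hNI
    (inv_of_pic hP) (fun n hn => ?_) (fun n hn => ?_) ?_
    (erg_of_pic hP hM) (erg_of_pic hP hM')
  · rw [e] at h1
    exact h1
  · rcases hn with h2 | h2
    · exact Or.inl (tendsto_pw.2 h2)
    · refine Or.inr ?_
      rw [pw, eventually_map]
      exact Eventually.of_forall fun i => Commute.pow_left h2 i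
  · rcases hn with h2 | h2
    · exact Or.inl (tendsto_pw.2 (mem_ctr_inv.1 h2))
    · refine Or.inr ?_
      rw [pw, eventually_map]
      exact Eventually.of_forall fun i => Commute.pow_left h2 i
  · rw [eq_top_iff, ← hcl]
    refine Subgroup.closure_mono ?_
    intro x hx
    simp only [Set.mem_union] at hx ⊢
    tauto

end dicho

section two

variable {E Γ Y₁ Y₂ Z₁ Z₂ K : Type} [Group E] [TopologicalSpace E] [Group Γ] [MulAction E Z₁]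
  [MulAction E Z₂] [TopologicalSpace Y₁] [CompactSpace Y₁] [MulAction Γ Y₁] [TopologicalSpace Y₂]
  [CompactSpace Y₂] [MulAction Γ Y₂] [NormedAddCommGroup K] [InnerProductSpace ℂ K]
  [CompleteSpace K] {b : E} {π : E →* (K →L[ℂ] K)} {lam : Γ →* (K →L[ℂ] K)}
  {W : Set (K →L[ℂ] K)} {Ω : K} {mp : (Γ → ℝ) → (K →L[ℂ] K)} {Bd Bf : Set K}
  {ms : E → Set Γ → ℝ} {z₁ : Z₁} {z₂ : Z₂} {Br : ℝ → Set Γ}
  {NA₁ : ℝ → ℝ → Set Y₁ → Set Γ} {NA₂ : ℝ → ℝ → Set Y₂ → Set Γ} {G1 G2 H1 H2 : Γ → ℝ}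
  {bp₁ : Γ → Y₁} {bp₂ : Γ → Y₂}

/-- The source geometry: the wall element `b`, the spaces `Z₁`, `Z₂` of the conjugates of `b`,
`b⁻¹`, the Moore property of the two stabilisers. -/
structure GeoE (b : E) (z₁ : Z₁) (z₂ : Z₂) : Prop where
  trans₁ : ∀ z : Z₁, ∃ g : E, g • z₁ = z
  stab₁ : ∀ g : E, g • z₁ = z₁ → ∃ v n, g = v * n ∧ v * b = b * v ∧
    Tendsto (fun N : ℕ => (b ^ N)⁻¹ * n * b ^ N) atTop (𝓝 1)
  trans₂ : ∀ z : Z₂, ∃ g : E, g • z₂ = z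
  stab₂ : ∀ g : E, g • z₂ = z₂ → ∃ v n, g = v * n ∧ v * b = b * v ∧
    Tendsto (fun N : ℕ => b ^ N * n * (b ^ N)⁻¹) atTop (𝓝 1)
  moore : Moore (Ctr b ∪ Cen b)
  moore' : Moore (Ctr b⁻¹ ∪ Cen b)
  cl : Subgroup.closure (Ctr b ∪ Ctr b⁻¹ ∪ Cen b) = ⊤

/-- The source data. -/
structure SrcE (b : E) (π : E →* (K →L[ℂ] K)) (lam : Γ →* (K →L[ℂ] K))
    (W : Set (K →L[ℂ] K)) (Ω : K) (mp : (Γ → ℝ) → (K →L[ℂ] K)) (Bd Bf : Set K) :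
    Prop where
  pic : Pic π lam W Ω
  mcov : ∀ γ (F : Γ → ℝ), (∀ g, |F g| ≤ 1) →
    lam γ * mp F * lam γ⁻¹ = mp (fun g => F (γ⁻¹ * g))
  mW : ∀ w ∈ W, ∀ F : Γ → ℝ, (∀ g, |F g| ≤ 1) → w * mp F = mp F * w
  slow : Slow mp (fun g => π g) Bd
  loc : Loc2 mp (fun g => π g) Bd Bf
  esc : ∀ g, ∀ ξ ∈ Bd, Tendsto (fun n : ℕ => ‖st mp {g} (π (b ^ n) ξ)‖) atTop (𝓝 0)
  esc' : ∀ g, ∀ ξ ∈ Bd, Tendsto (fun n : ℕ => ‖st mp {g} (π (b⁻¹ ^ n) ξ)‖) atTop (𝓝 0)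
  sym : Sym mp (fun g => π g) Ω

theorem SrcE.esc1 (S : SrcE b π lam W Ω mp Bd Bf) :
    Esc (st mp) (fun g => π g) Bd (Subgroup.zpowers b) (pw b) :=
  ⟨pw_mem b, fun g ξ hξ => tendsto_pw.2 (S.esc g ξ hξ)⟩

theorem SrcE.esc2 (S : SrcE b π lam W Ω mp Bd Bf) :
    Esc (st mp) (fun g => π g) Bd (Subgroup.zpowers b) (pw b⁻¹) :=
  ⟨by
    have := pw_mem (b⁻¹ : E)
    rwa [Subgroup.zpowers_inv] at this, fun g ξ hξ => tendsto_pw.2 (S.esc' g ξ hξ)⟩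

theorem SrcE.leg (S : SrcE b π lam W Ω mp Bd Bf) :
    Leg mp (fun g => π g) (fun γ => lam γ) W := leg_of_pic S.pic S.mcov S.mW

/-- **Two legs, from the fullness in both directions.** -/
theorem two_famE (S : SrcE b π lam W Ω mp Bd Bf) (hE : GeoE b z₁ z₂)
    (h₁ : SysF mp (fun g => π g) Bd ms (Subgroup.zpowers b) Br G1 G2)
    (h₂ : SysF mp (fun g => π g) Bd ms (Subgroup.zpowers b) Br H1 H2)
    (hG₁ : GeoF Br G1 G2 bp₁) (hG₂ : GeoF Br H1 H2 bp₂) (hc₁ : DomCut NA₁ G1 G2 bp₁)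
    (hc₂ : DomCut NA₂ H1 H2 bp₂) (hf₁ : Full (st mp) (fun g => π g) G1 G2 (pw b⁻¹))
    (hf₂ : Full (st mp) (fun g => π g) H1 H2 (pw b)) :
    ∃ (F₁ : Z₁ → (C(Y₁, ℂ) →⋆ₐ[ℂ] (K →L[ℂ] K))) (F₂ : Z₂ → (C(Y₂, ℂ) →⋆ₐ[ℂ] (K →L[ℂ] K))),
      Fam b π lam W (st mp) NA₁ z₁ F₁ ∧ Fam b⁻¹ π lam W (st mp) NA₂ z₂ F₂ := by
  have hz : Subgroup.zpowers b⁻¹ = Subgroup.zpowers b := Subgroup.zpowers_inv
  obtain ⟨F₁, hF₁⟩ := fam_eng (Z := Z₁) (z0 := z₁) (NA := NA₁) (h₁.mono hz.le) S.leg hG₁ S.slow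
    S.loc (by rw [hz]; exact S.esc2) hf₁ hc₁ hE.trans₁ hE.stab₁
  obtain ⟨F₂, hF₂⟩ := fam_eng (b := b⁻¹) (Z := Z₂) (z0 := z₂) (NA := NA₂)
    (h₂.mono (by rw [inv_inv])) S.leg hG₂ S.slow S.loc (by rw [inv_inv]; exact S.esc1)
    (by rw [inv_inv]; exact hf₂) hc₂ hE.trans₂ (fun g hg => by
      obtain ⟨v, n, h1, h2, h3⟩ := hE.stab₂ g hg
      refine ⟨v, n, h1, (show Commute v b from h2).inv_right, ?_⟩
      refine h3.congr fun N => ?_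
      rw [inv_pow, inv_inv])
  exact ⟨F₁, F₂, hF₁, hF₂⟩

/-- **[N-ENG] + [N-DICHO]: two legs, in one of the two types.** -/
theorem disE (S : SrcE b π lam W Ω mp Bd Bf) (hE : GeoE b z₁ z₂)
    (h₁ : SysF mp (fun g => π g) Bd ms (Subgroup.zpowers b) Br G1 G2)
    (h₂ : SysF mp (fun g => π g) Bd ms (Subgroup.zpowers b) Br H1 H2)
    (hG₁ : GeoF Br G1 G2 bp₁) (hG₂ : GeoF Br H1 H2 bp₂) (hc₁ : DomCut NA₁ G1 G2 bp₁)
    (hc₂ : DomCut NA₂ H1 H2 bp₂)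
    (hp : Pos (st mp) (fun g => π g) G2 H2 (pw b)) (hp' : Pos (st mp) (fun g => π g) G2 H2 (pw b⁻¹))
    {C : ℝ} (hC : Gaps G1 G2 H1 H2 C) (hNI : H76.Pur.NIS (fun (γ : Γ) (y : Y₁) => γ • y)) :
    (∃ (F₁ : Z₁ → (C(Y₁, ℂ) →⋆ₐ[ℂ] (K →L[ℂ] K))) (F₂ : Z₂ → (C(Y₂, ℂ) →⋆ₐ[ℂ] (K →L[ℂ] K))),
      Fam b π lam W (st mp) NA₁ z₁ F₁ ∧ Fam b⁻¹ π lam W (st mp) NA₂ z₂ F₂) ∨
    (∃ (F₂ : Z₁ → (C(Y₂, ℂ) →⋆ₐ[ℂ] (K →L[ℂ] K))) (F₁ : Z₂ → (C(Y₁, ℂ) →⋆ₐ[ℂ] (K →L[ℂ] K))),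
      Fam b π lam W (st mp) NA₂ z₁ F₂ ∧ Fam b⁻¹ π lam W (st mp) NA₁ z₂ F₁) := by
  rcases dicho_picE S.pic h₁ hG₁ S.mcov S.mW S.slow S.esc1 S.esc2
    (H43.N.lu1_cn h₁ S.loc hG₁.fin S.esc1) (H43.N.lu1_cn h₁ S.loc hG₁.fin S.esc2) hp hp' S.sym hC
    hNI hE.moore hE.moore' hE.cl with ⟨k1, k2⟩ | ⟨k1, k2⟩
  · right
    exact two_famE S hE h₂ h₁ hG₂ hG₁ hc₂ hc₁ k2 k1
  · left
    exact two_famE S hE h₁ h₂ hG₁ hG₂ hc₁ hc₂ k2 k1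

end two

end Vale.Agent.P092.H368.SN
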