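import Vale.Agent.P092.H368.SN.Fam
import Vale.Agent.P092.H368.SN.OrbP
import Vale.Agent.P092.H100.Gr2

/-!
P092 (helper368), TEAM N, block [N-PAR]: the stabilisers of a point and of a hyperplane in `SL_n(k)`
(every field, every finite index set): the condition `Dec` of `SN/Fam` for the wall element
`wl i w = diag(w^{-(n-1)}, w, .., w)` and its inverse.
-/

set_option linter.all false

open scoped InnerProductSpace ENNReal LinearAlgebra.Projectivization
open Filter Topology Matrix

namespace Vale.Agent.P092.H368.SN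

section alg

variable {k : Type} [Field k] {ι : Type} [Fintype ι] [DecidableEq ι]

/-- the matrix `1 + e_i ⊗ φ`, `φ_i` replaced by `0` -/
def uM (i : ι) (φ : ι → k) : Matrix ι ι k :=
  fun x y => (if x = y then 1 else 0) + (if x = i ∧ y ≠ i then φ y else 0)

theorem uM_eq (i : ι) (φ : ι → k) : uM i φ =
    1 + replicateCol Unit (Pi.single i (1 : k)) * replicateRow Unit (Function.update φ i 0) := by
  ext x y
  rw [Matrix.add_apply, Matrix.one_apply, Matrix.mul_apply]
  simp only [uM, replicateCol_apply, replicateRow_apply, Finset.univ_unique, Finset.sum_singleton]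
  congr 1
  by_cases hx : x = i
  · subst hx
    by_cases hy : y = x
    · subst hy
      simp
    · simp [hy]
  · simp [hx]

theorem uM_det (i : ι) (φ : ι → k) : (uM i φ).det = 1 := by
  rw [uM_eq, det_one_add_replicateCol_mul_replicateRow]
  simp

/-- the unipotent radical of the stabiliser of `[e_i]` -/
def ur (i : ι) (φ : ι → k) : Matrix.SpecialLinearGroup ι k := ⟨uM i φ, uM_det i φ⟩

theorem ur_coe (i : ι) (φ : ι → k) : (ur i φ).1 = uM i φ := rfl

theorem ur_zero (i : ι) : ur i (0 : ι → k) = 1 := by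
  apply Subtype.ext
  ext x y
  rw [ur_coe, Matrix.SpecialLinearGroup.coe_one, Matrix.one_apply, uM]
  simp

theorem diag_comm {v b : Matrix.SpecialLinearGroup ι k} {d : ι → k} (hb : b.1 = Matrix.diagonal d)
    (hv : ∀ x y, v.1 x y ≠ 0 → d x = d y) : v * b = b * v := by
  apply Subtype.ext
  rw [Matrix.SpecialLinearGroup.coe_mul, Matrix.SpecialLinearGroup.coe_mul]
  change v.1 * b.1 = b.1 * v.1
  rw [hb]
  ext x y
  rw [Matrix.mul_diagonal, Matrix.diagonal_mul]
  by_cases h : v.1 x y = 0
  · rw [h, zero_mul, mul_zero]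
  · rw [hv x y h, mul_comm]

theorem wl_ur (i : ι) (w : kˣ) (φ : ι → k) : wl i w * ur i φ =
    ur i ((((w ^ Fintype.card ι)⁻¹ : kˣ) : k) • φ) * wl i w := by
  apply Subtype.ext
  rw [Matrix.SpecialLinearGroup.coe_mul, Matrix.SpecialLinearGroup.coe_mul]
  change (wl i w).1 * (ur i φ).1 = (ur i _).1 * (wl i w).1
  rw [wl_coe, ur_coe, ur_coe]
  ext x y
  rw [Matrix.diagonal_mul, Matrix.mul_diagonal]
  unfold uM
  by_cases hx : x = i
  · subst hx
    by_cases hy : y = x
    · subst hy
      simp
    · have h1 := wdg_ratio (ι := ι) (i := x) (j := y) (fun h => hy h.symm) w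
      simp only [hy, Ne.symm hy, if_false, zero_add, true_and, not_false_eq_true, if_true,
        Pi.smul_apply, smul_eq_mul, ne_eq]
      rw [h1]
      ring
  · by_cases hxy : x = y
    · subst hxy
      simp [hx]
    · simp [hx, hxy]

theorem wl_pow_ur (i : ι) (w : kˣ) (φ : ι → k) (N : ℕ) : wl i w ^ N * ur i φ =
    ur i ((((w ^ Fintype.card ι)⁻¹ : kˣ) : k) ^ N • φ) * wl i w ^ N := by
  induction N generalizing φ with
  | zero => simp
  | succ N ih =>
    rw [pow_succ, mul_assoc, wl_ur, ← mul_assoc, ih, mul_assoc]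
    congr 2
    rw [smul_smul, pow_succ]

theorem ur_conj (i : ι) (w : kˣ) (φ : ι → k) (N : ℕ) : (wl i w ^ N)⁻¹ * ur i φ * wl i w ^ N =
    ur i (((w : k) ^ Fintype.card ι) ^ N • φ) := by
  have h := wl_pow_ur i w (((w : k) ^ Fintype.card ι) ^ N • φ) N
  have e : (((w ^ Fintype.card ι)⁻¹ : kˣ) : k) ^ N • ((w : k) ^ Fintype.card ι) ^ N • φ = φ := by
    rw [smul_smul, ← mul_pow]
    have : (((w ^ Fintype.card ι)⁻¹ : kˣ) : k) * (w : k) ^ Fintype.card ι = 1 := by
      rw [← Units.val_pow_eq_pow_val, ← Units.val_mul, inv_mul_cancel, Units.val_one]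
    rw [this, one_pow, one_smul]
  rw [e] at h
  rw [mul_assoc, ← h, inv_mul_cancel_left]

/-- Decomposition of an element whose `i`-th column is supported at `i`. -/
theorem col_dec {i : ι} {g : Matrix.SpecialLinearGroup ι k} (hg : ∀ x, x ≠ i → g.1 x i = 0) (w : kˣ) :
    ∃ (v : Matrix.SpecialLinearGroup ι k) (φ : ι → k), v * wl i w = wl i w * v ∧ g = v * ur i φ := by
  classical
  have ha : g.1 i i ≠ 0 := by
    intro h
    have h1 : g.1.det = 0 := by
      refine Matrix.det_eq_zero_of_column_eq_zero i fun x => ?_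
      by_cases hx : x = i
      · rw [hx]
        exact h
      · exact hg x hx
    rw [g.2] at h1
    exact one_ne_zero h1
  obtain ⟨φ, hφ⟩ : ∃ φ : ι → k, φ = fun y => g.1 i y / g.1 i i := ⟨_, rfl⟩
  have hinv : ur i (-φ) * ur i φ = 1 := by
    apply Subtype.ext
    rw [Matrix.SpecialLinearGroup.coe_mul, Matrix.SpecialLinearGroup.coe_one]
    change uM i (-φ) * uM i φ = 1
    ext x y
    rw [Matrix.mul_apply, Matrix.one_apply]
    by_cases hx : x = i
    · subst hx
      rw [← Finset.add_sum_erase Finset.univ _ (Finset.mem_univ x)]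
      have h1 : ∀ z ∈ Finset.univ.erase x, uM x (-φ) x z * uM x φ z y =
          if z = y then -φ y else 0 := by
        intro z hz
        have hz' : z ≠ x := Finset.ne_of_mem_erase hz
        unfold uM
        simp only [hz', Ne.symm hz', if_false, zero_add, true_and, not_false_eq_true, if_true,
          false_and, add_zero, Pi.neg_apply, ne_eq]
        split_ifs with h
        · rw [h, mul_one]
        · rw [mul_zero]
      rw [Finset.sum_congr rfl h1, Finset.sum_ite_eq']
      unfold uM
      by_cases hy : y = x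
      · subst hy
        simp
      · simp [hy, Ne.symm hy]
    · have h1 : ∀ z, uM i (-φ) x z * uM i φ z y = if x = z then uM i φ z y else 0 := by
        intro z
        unfold uM
        simp only [hx, false_and, if_false, add_zero]
        split_ifs <;> simp
      rw [Finset.sum_congr rfl fun z _ => h1 z, Finset.sum_ite_eq]
      unfold uM
      simp [hx]
  obtain ⟨v, hv⟩ : ∃ v, v = g * ur i (-φ) := ⟨_, rfl⟩
  have hvx : ∀ x y, v.1 x y = g.1 x y - (if y ≠ i then g.1 x i * φ y else 0) := by
    intro x y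
    rw [hv, Matrix.SpecialLinearGroup.coe_mul]
    change (g.1 * uM i (-φ)) x y = _
    rw [Matrix.mul_apply]
    have h1 : ∀ z, g.1 x z * uM i (-φ) z y = (if z = y then g.1 x z else 0) +
        (if z = i then (if y ≠ i then - (g.1 x i * φ y) else 0) else 0) := by
      intro z
      unfold uM
      by_cases hz : z = i
      · subst hz
        by_cases hy : y = z
        · subst hy; simp
        · simp [hy, Ne.symm hy]
      · simp [hz]
    rw [Finset.sum_congr rfl fun z _ => h1 z, Finset.sum_add_distrib, Finset.sum_ite_eq',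
      Finset.sum_ite_eq']
    simp only [Finset.mem_univ, if_true]
    split_ifs <;> ring
  refine ⟨v, φ, diag_comm (wl_coe i w) fun x y hxy => ?_, ?_⟩
  · rw [hvx] at hxy
    by_cases hx : x = i
    · subst hx
      by_cases hy : y = x
      · rw [hy]
      · exfalso
        apply hxy
        rw [if_pos hy, hφ]
        field_simp
        ring
    · by_cases hy : y = i
      · exfalso
        apply hxy
        rw [hy, hg x hx]
        simp
      · rw [wdg, wdg, if_neg hx, if_neg hy]
  · rw [hv, mul_assoc, hinv, mul_one]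

/-- the inverse transpose -/
def ta (k ι : Type) [Field k] [Fintype ι] [DecidableEq ι] :
    Matrix.SpecialLinearGroup ι k →* Matrix.SpecialLinearGroup ι k where
  toFun g := ⟨(g⁻¹).1.transpose, by rw [Matrix.det_transpose]; exact (g⁻¹).2⟩
  map_one' := by
    apply Subtype.ext
    simp
  map_mul' g h := by
    apply Subtype.ext
    change ((g * h)⁻¹).1.transpose = (g⁻¹).1.transpose * (h⁻¹).1.transpose
    rw [_root_.mul_inv_rev, Matrix.SpecialLinearGroup.coe_mul, Matrix.transpose_mul]

theorem ta_coe (g : Matrix.SpecialLinearGroup ι k) : (ta k ι g).1 = (g⁻¹).1.transpose := rfl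

theorem ta_ta (g : Matrix.SpecialLinearGroup ι k) : ta k ι (ta k ι g) = g := by
  apply Subtype.ext
  rw [ta_coe, ← map_inv, ta_coe, inv_inv, Matrix.transpose_transpose]

theorem ta_diag {b : Matrix.SpecialLinearGroup ι k} {d : ι → k} (hb : b.1 = Matrix.diagonal d) :
    ta k ι b = b⁻¹ := by
  rw [← inv_inv (ta k ι b), ← map_inv]
  congr 1
  apply Subtype.ext
  rw [ta_coe, inv_inv, hb, Matrix.diagonal_transpose]

end alg

section top

variable {k : Type} [NontriviallyNormedField k] {ι : Type} [Fintype ι] [DecidableEq ι]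

theorem continuous_ta : Continuous (ta k ι) := by
  refine continuous_induced_rng.2 ?_
  change Continuous fun g : Matrix.SpecialLinearGroup ι k => (g⁻¹).1.transpose
  have h1 : Continuous fun g : Matrix.SpecialLinearGroup ι k => g⁻¹ := continuous_inv
  exact (continuous_subtype_val.comp h1).matrix_transpose

theorem continuous_ur (i : ι) : Continuous fun φ : ι → k => ur i φ := by
  refine continuous_induced_rng.2 ?_
  refine continuous_pi fun x => continuous_pi fun y => ?_
  change Continuous fun φ : ι → k => uM i φ x y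
  unfold uM
  refine continuous_const.add ?_
  split_ifs
  · exact continuous_apply y
  · exact continuous_const

theorem ur_tendsto {w : kˣ} (hw : ‖(w : k)‖ < 1) (i : ι) (φ : ι → k) :
    Tendsto (fun N : ℕ => (wl i w ^ N)⁻¹ * ur i φ * wl i w ^ N) atTop (𝓝 1) := by
  have h0 : Fintype.card ι ≠ 0 := (Fintype.card_pos_iff.2 ⟨i⟩).ne'
  have h1 : Tendsto (fun N : ℕ => ((w : k) ^ Fintype.card ι) ^ N) atTop (𝓝 0) := by
    refine tendsto_pow_atTop_nhds_zero_of_norm_lt_one ?_
    rw [norm_pow]
    exact pow_lt_one₀ (norm_nonneg _) hw h0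
  have h2 : Tendsto (fun N : ℕ => ((w : k) ^ Fintype.card ι) ^ N • φ) atTop (𝓝 0) := by
    have := h1.smul_const φ
    rwa [zero_smul] at this
  have h3 := ((continuous_ur (k := k) i).tendsto 0).comp h2
  rw [ur_zero] at h3
  refine h3.congr fun N => ?_
  rw [ur_conj]
  rfl

/-- column form -/
theorem dec_col {w : kˣ} (hw : ‖(w : k)‖ < 1) {i : ι} {g : Matrix.SpecialLinearGroup ι k}
    (hg : ∀ x, x ≠ i → g.1 x i = 0) : ∃ v n : Matrix.SpecialLinearGroup ι k,
      v * wl i w = wl i w * v ∧
      Tendsto (fun N : ℕ => (wl i w ^ N)⁻¹ * n * wl i w ^ N) atTop (𝓝 1) ∧ g = v * n := by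
  obtain ⟨v, φ, h1, h2⟩ := col_dec hg w
  exact ⟨v, ur i φ, h1, ur_tendsto hw i φ, h2⟩

/-- row form, for the inverse wall element -/
theorem dec_row {w : kˣ} (hw : ‖(w : k)‖ < 1) {i : ι} {g : Matrix.SpecialLinearGroup ι k}
    (hg : ∀ x, x ≠ i → g⁻¹.1 i x = 0) : ∃ v n : Matrix.SpecialLinearGroup ι k,
      v * (wl i w)⁻¹ = (wl i w)⁻¹ * v ∧
      Tendsto (fun N : ℕ => ((wl i w)⁻¹ ^ N)⁻¹ * n * (wl i w)⁻¹ ^ N) atTop (𝓝 1) ∧
      g = v * n := by
  have h0 : ∀ x, x ≠ i → (ta k ι g).1 x i = 0 := fun x hx => by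
    rw [ta_coe, Matrix.transpose_apply]
    exact hg x hx
  obtain ⟨v, n, h1, h2, h3⟩ := dec_col hw h0
  have hb : ta k ι (wl i w) = (wl i w)⁻¹ := ta_diag (wl_coe i w)
  refine ⟨ta k ι v, ta k ι n, ?_, ?_, ?_⟩
  · rw [← hb, ← map_mul, h1, map_mul]
  · have h4 := (continuous_ta (k := k) (ι := ι)).tendsto 1 |>.comp h2
    rw [map_one] at h4
    refine h4.congr fun N => ?_
    simp only [Function.comp_apply, map_mul, map_inv, map_pow, hb]
  · rw [← map_mul, ← h3, ta_ta]

/-! ### Points and hyperplanes as subspaces -/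

open Vale.Agent.P092.H100.Gr

omit [DecidableEq ι] in
theorem finrank_line [DecidableEq ι] (i : ι) :
    Module.finrank k (Submodule.span k {(Pi.single i (1 : k) : ι → k)}) = 1 :=
  finrank_span_singleton (by
    intro h
    have := congrFun h i
    simp at this)

/-- the coordinate point, as a subspace -/
def ptG (k : Type) [NontriviallyNormedField k] {ι : Type} [Fintype ι] [DecidableEq ι] (i : ι) :
    Gr k ι 1 := ⟨Submodule.span k {(Pi.single i (1 : k) : ι → k)}, finrank_line i⟩

/-- the coordinate hyperplane `x_i = 0` -/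
def hypS (k : Type) [NontriviallyNormedField k] {ι : Type} [Fintype ι] [DecidableEq ι] (i : ι) :
    Submodule k (ι → k) := LinearMap.ker (LinearMap.proj i : (ι → k) →ₗ[k] k)

theorem mem_hypS {i : ι} {x : ι → k} : x ∈ hypS k i ↔ x i = 0 := LinearMap.mem_ker

theorem finrank_hyp (i : ι) : Module.finrank k (hypS k i) = Fintype.card ι - 1 := by
  have h1 := LinearMap.finrank_range_add_finrank_ker (LinearMap.proj i : (ι → k) →ₗ[k] k)
  have h2 : LinearMap.range (LinearMap.proj i : (ι → k) →ₗ[k] k) = ⊤ :=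
    LinearMap.range_eq_top.2 fun c => ⟨Pi.single i c, by simp⟩
  rw [h2, finrank_top, Module.finrank_self, Module.finrank_fintype_fun_eq_card] at h1
  change Module.finrank k (LinearMap.ker (LinearMap.proj i : (ι → k) →ₗ[k] k)) = _
  omega

theorem col_of_fix {i : ι} {g : Matrix.SpecialLinearGroup ι k}
    (hg : g • (Pi.single i (1 : k) : ι → k) ∈ Submodule.span k {(Pi.single i (1 : k) : ι → k)})
    (x : ι) (hx : x ≠ i) : g.1 x i = 0 := by
  obtain ⟨c, hc⟩ := Submodule.mem_span_singleton.1 hg
  have h1 : (g • (Pi.single i (1 : k) : ι → k)) x = g.1 x i := by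
    change g.1.mulVec (Pi.single i 1) x = _
    rw [Matrix.mulVec_single_one]
    rfl
  rw [← h1, ← hc]
  simp [hx]

/-- **`Dec` for the coordinate point in the Grassmannian of lines.** -/
theorem dec_ptG {w : kˣ} (hw : ‖(w : k)‖ < 1) (i : ι) : Dec (wl i w) (ptG k i) := by
  intro g hg
  refine dec_col hw fun x hx => col_of_fix ?_ x hx
  have h1 : (Pi.single i (1 : k) : ι → k) ∈ (ptG k i).1 := Submodule.mem_span_singleton_self _
  have h2 := smul_mem (g := g) h1
  rw [hg] at h2
  exact h2

/-- **`Dec` for the coordinate point in the projective space.** -/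
theorem dec_pt {w : kˣ} (hw : ‖(w : k)‖ < 1) (i : ι) (hne : (Pi.single i (1 : k) : ι → k) ≠ 0) :
    Dec (D := Matrix.SpecialLinearGroup ι k) (wl i w)
      (Projectivization.mk k (Pi.single i (1 : k) : ι → k) hne) := by
  intro g hg
  refine dec_col hw fun x hx => col_of_fix ?_ x hx
  rw [Projectivization.smul_mk] at hg
  obtain ⟨c, hc⟩ := (Projectivization.mk_eq_mk_iff k _ _ _ _).1 hg
  exact Submodule.mem_span_singleton.2 ⟨c, hc⟩

/-- the coordinate hyperplane, as a point of the Grassmannian -/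
def hypG (k : Type) [NontriviallyNormedField k] {ι : Type} [Fintype ι] [DecidableEq ι] (i : ι)
    {j : ℕ} (hj : j + 1 = Fintype.card ι) : Gr k ι j :=
  ⟨hypS k i, by rw [finrank_hyp]; omega⟩

/-- **`Dec` for the coordinate hyperplane**, wall element `(wl i w)⁻¹`. -/
theorem dec_hypG {w : kˣ} (hw : ‖(w : k)‖ < 1) (i : ι) {j : ℕ} (hj : j + 1 = Fintype.card ι) :
    Dec (wl i w)⁻¹ (hypG k i hj) := by
  intro g hg
  refine dec_row hw fun x hx => ?_
  have h1 : (Pi.single x (1 : k) : ι → k) ∈ (hypG k i hj).1 :=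
    mem_hypS.2 (by simp [Ne.symm hx])
  rw [← hg] at h1
  have h2 : g⁻¹ • (Pi.single x (1 : k) : ι → k) ∈ (hypG k i hj).1 := mem_smul.1 h1
  have h3 := mem_hypS.1 h2
  have h4 : (g⁻¹ • (Pi.single x (1 : k) : ι → k)) i = g⁻¹.1 i x := by
    change g⁻¹.1.mulVec (Pi.single x 1) i = _
    rw [Matrix.mulVec_single_one]
    rfl
  rw [← h4]
  exact h3

end top

end Vale.Agent.P092.H368.SN
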