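import Vale.Agent.P092.SN.Defs
import Vale.Agent.P092.H368.SN.Par
import Vale.Agent.P092.H368.SN.SrcE

/-!
P092 (helper368), Team N, block [N-EX], source geometry: for an admissible source group `E`
(`SN.Adm ι a a'`) in which the common stabiliser of the point `y0` and of the hyperplane `y0`
commutes with the wall element `b = ι (bw w)`, all fields of `GeoE`: transitivity and stabilisers
on points and on hyperplanes, Moore property, generation.
-/

set_option linter.all false

open scoped InnerProductSpace ENNReal LinearAlgebra.Projectivization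
open Filter Topology Matrix

namespace Vale.Agent.P092.H368.SN

open Vale.Agent.P092.RC (Moore GG PG YY y0 ct)
open Vale.Agent.P092.SN (Prv Adm inc bw)

/-- the space of points as a space of `E`, through `a` -/
def ZA {k : Type} [NontriviallyNormedField k] {N : ℕ} {E : Type} [Group E]
    (a : E →* PG k (N + 1)) : Type := YY k N

noncomputable instance {k : Type} [NontriviallyNormedField k] {N : ℕ} {E : Type} [Group E]
    (a : E →* PG k (N + 1)) : MulAction E (ZA a) :=
  MulAction.compHom (YY k N) a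

theorem za_smul {k : Type} [NontriviallyNormedField k] {N : ℕ} {E : Type} [Group E]
    (a : E →* PG k (N + 1)) (e : E) (x : ZA a) :
    e • x = (show ZA a from (a e • (show YY k N from x))) := rfl

/-- the base point -/
noncomputable def z0 {k : Type} [NontriviallyNormedField k] {N : ℕ} {E : Type} [Group E]
    (a : E →* PG k (N + 1)) : ZA a := (y0 : YY k N)

section con

variable {k : Type} [NontriviallyNormedField k] {N : ℕ}

theorem bw_eq (w : kˣ) : (bw w : GG k N) = wl 0 w := by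
  apply Subtype.ext
  change Matrix.diagonal _ = Matrix.diagonal _
  congr 1
  funext i
  simp only [wdg, Fintype.card_fin, Nat.add_sub_cancel]

theorem ct_eq : (ct : GG k N →* GG k N) = ta k (Fin (N + 1)) := rfl

theorem ct_ct (g : GG k N) : ct (ct g) = g := ta_ta g

theorem ct_cont : Continuous (ct : GG k N → GG k N) := continuous_ta

theorem ct_bw (w : kˣ) : ct (bw w : GG k N) = (bw w)⁻¹ := by
  rw [ct_eq, bw_eq]
  exact ta_diag (wl_coe 0 w)

theorem y0_ne : (Pi.single 0 1 : Fin (N + 1) → k) ≠ 0 := fun h => by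
  have := congrFun h 0
  simp at this

/-- a point off the hyperplane `y0` -/
def Off (x : YY k N) : Prop := x.rep 0 ≠ 0

theorem ur_mulVec (φ : Fin (N + 1) → k) (v : Fin (N + 1) → k) :
    (ur 0 φ).1 *ᵥ v = v + (∑ y, if y ≠ 0 then φ y * v y else 0) • Pi.single 0 (1 : k) := by
  funext x
  rw [ur_coe, Matrix.mulVec, dotProduct]
  simp only [uM, add_mul, Finset.sum_add_distrib, ite_mul, one_mul, zero_mul,
    Finset.sum_ite_eq, Finset.mem_univ, if_true, Pi.add_apply, Pi.smul_apply, smul_eq_mul]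
  congr 1
  by_cases hx : x = 0
  · subst hx
    simp
  · simp [hx]

theorem ur_mul_neg (φ : Fin (N + 1) → k) : ur 0 φ * ur 0 (-φ) = 1 := by
  apply Subtype.ext
  rw [Matrix.SpecialLinearGroup.coe_mul, Matrix.SpecialLinearGroup.coe_one]
  refine Matrix.ext_iff_mulVec.2 fun v => ?_
  rw [← Matrix.mulVec_mulVec, one_mulVec]
  change (ur 0 φ).1 *ᵥ ((ur 0 (-φ)).1 *ᵥ v) = v
  rw [ur_mulVec (-φ), ur_mulVec]
  have h1 : ∀ c : k, (∑ y : Fin (N + 1), if y ≠ 0 then φ y *
      (v + c • (Pi.single 0 (1 : k) : Fin (N + 1) → k)) y else 0) =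
      ∑ y : Fin (N + 1), if y ≠ 0 then φ y * v y else 0 := by
    intro c
    refine Finset.sum_congr rfl fun y _ => ?_
    by_cases hy : y = 0
    · simp [hy]
    · simp [hy]
  rw [h1, add_assoc, ← add_smul]
  have h2 : (∑ y : Fin (N + 1), if y ≠ 0 then (-φ) y * v y else 0) +
      (∑ y : Fin (N + 1), if y ≠ 0 then φ y * v y else 0) = 0 := by
    rw [← Finset.sum_add_distrib]
    refine Finset.sum_eq_zero fun y _ => ?_
    split_ifs
    · rw [Pi.neg_apply]; ring
    · ring
  rw [h2, zero_smul, add_zero]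

theorem ur_inv (φ : Fin (N + 1) → k) : (ur 0 φ)⁻¹ = ur 0 (-φ) :=
  (eq_inv_of_mul_eq_one_right (ur_mul_neg φ)).symm

/-- the action on points of `ur` fixes `y0` -/
theorem ur_y0 (φ : Fin (N + 1) → k) : ur 0 φ • (y0 : YY k N) = y0 := by
  change ur 0 φ • Projectivization.mk k _ _ = Projectivization.mk k _ _
  rw [Projectivization.smul_mk, Projectivization.mk_eq_mk_iff']
  refine ⟨1, ?_⟩
  rw [one_smul]
  change _ = (ur 0 φ).1 *ᵥ _
  rw [ur_mulVec]
  have : (∑ y : Fin (N + 1), if y ≠ 0 then φ y * (Pi.single 0 (1 : k) : Fin (N + 1) → k) y else 0)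
      = 0 := by
    refine Finset.sum_eq_zero fun y _ => ?_
    by_cases hy : y = 0
    · simp [hy]
    · simp [hy]
  rw [this, zero_smul, add_zero]

/-- `ct (ur φ)` maps `e_0` to `e_0 - φ` -/
theorem ct_ur_mulVec (φ : Fin (N + 1) → k) :
    (ct (ur 0 φ : GG k N)).1 *ᵥ (Pi.single 0 (1 : k)) =
      fun x => if x = 0 then 1 else - φ x := by
  change (((ur 0 φ : GG k N)⁻¹).1)ᵀ *ᵥ _ = _
  rw [ur_inv]
  funext x
  rw [Matrix.mulVec_single_one]
  change uM 0 (-φ) 0 x = _
  unfold uM
  by_cases hx : x = 0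
  · subst hx
    simp
  · simp [hx, Ne.symm hx]

/-- every point off the hyperplane `y0` is in the orbit of `y0` -/
theorem ct_ur_y0 (v : Fin (N + 1) → k) (hv : v ≠ 0) (h0 : v 0 ≠ 0) :
    ct (ur 0 (fun x => - (v x / v 0)) : GG k N) • (y0 : YY k N) = Projectivization.mk k v hv := by
  change _ • Projectivization.mk k _ _ = Projectivization.mk k _ _
  rw [Projectivization.smul_mk, Projectivization.mk_eq_mk_iff']
  refine ⟨(v 0)⁻¹, ?_⟩
  change _ = (ct (ur 0 _ : GG k N)).1 *ᵥ _
  rw [ct_ur_mulVec]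
  funext x
  by_cases hx : x = 0
  · subst hx
    simp [h0]
  · simp only [hx, if_false, Pi.smul_apply, smul_eq_mul, neg_neg]
    field_simp

theorem inc_y0_mk (v : Fin (N + 1) → k) (hv : v ≠ 0) :
    inc (Projectivization.mk k v hv) (y0 : YY k N) ↔ v 0 = 0 := by
  unfold inc
  change Projectivization.orthogonal (Projectivization.mk k v hv)
    (Projectivization.mk k _ _) ↔ _
  rw [Projectivization.orthogonal_mk, dotProduct_single, mul_one]

theorem inc_y0_mk' (v : Fin (N + 1) → k) (hv : v ≠ 0) :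
    inc (y0 : YY k N) (Projectivization.mk k v hv) ↔ v 0 = 0 := by
  unfold inc
  change Projectivization.orthogonal (Projectivization.mk k _ _)
    (Projectivization.mk k v hv) ↔ _
  rw [Projectivization.orthogonal_mk, single_dotProduct, one_mul]

theorem inc_comm (x l : YY k N) : inc x l ↔ inc l x := by
  induction x using Projectivization.ind with | h v hv => ?_
  induction l using Projectivization.ind with | h w hw => ?_
  unfold inc
  rw [Projectivization.orthogonal_mk, Projectivization.orthogonal_mk, dotProduct_comm]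

theorem not_inc_y0 : ¬ inc (y0 : YY k N) y0 := by
  intro h
  have h1 := (inc_y0_mk' (N := N) (Pi.single 0 (1 : k)) y0_ne).1 h
  simp at h1

/-- a hyperplane which contains all points of the hyperplane `y0` is `y0` -/
theorem eq_y0_of_inc {l : YY k N} (h : ∀ x : YY k N, inc x y0 → inc x l) : l = y0 := by
  induction l using Projectivization.ind with | h w hw => ?_
  have h1 : ∀ i : Fin (N + 1), i ≠ 0 → w i = 0 := by
    intro i hi
    have hne : (Pi.single i 1 : Fin (N + 1) → k) ≠ 0 := fun h => by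
      have := congrFun h i
      simp at this
    have h2 := h (Projectivization.mk k (Pi.single i 1) hne)
      ((inc_y0_mk _ hne).2 (by simp [Ne.symm hi]))
    unfold inc at h2
    rw [Projectivization.orthogonal_mk, single_dotProduct, one_mul] at h2
    exact h2
  change Projectivization.mk k w hw = Projectivization.mk k _ _
  rw [Projectivization.mk_eq_mk_iff']
  refine ⟨w 0, ?_⟩
  funext i
  by_cases hi : i = 0
  · subst hi
    simp
  · simp [hi, h1 i hi]

theorem ur_ctr {w : kˣ} (hw : ‖(w : k)‖ < 1) (φ : Fin (N + 1) → k) :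
    Tendsto (fun i : ℕ => ((bw w : GG k N) ^ i)⁻¹ * ur 0 φ * (bw w : GG k N) ^ i) atTop (𝓝 1) := by
  rw [bw_eq]
  exact ur_tendsto hw 0 φ

end con

/-! ### The raw form of an admissible group -/

/-- the algebraic part of `SN.Adm` -/
structure Ad0 {k : Type} [NontriviallyNormedField k] {N : ℕ} {E : Type} [Group E]
    [TopologicalSpace E] (ι : GG k N →* E) (a a' : E →* PG k (N + 1)) : Prop where
  tg : IsTopologicalGroup E
  cι : Continuous ι
  comp : ∀ g (x : YY k N), a (ι g) • x = g • x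
  comp' : ∀ g (x : YY k N), a' (ι g) • x = ct g • x
  ort : ∀ e (x l : YY k N), inc (a e • x) (a' e • l) ↔ inc x l

section adm

variable {k : Type} [NontriviallyNormedField k] {N : ℕ} {E : Type} [Group E]
  [TopologicalSpace E] {ι : GG k N →* E} {a a' : E →* PG k (N + 1)}

theorem ad0_of (h : Adm ι a a') : Ad0 ι a a' := ⟨h.tg, h.cι, h.comp, h.comp', h.ort⟩

theorem Ad0.dual (h : Ad0 ι a a') : Ad0 (ι.comp ct) a' a where
  tg := h.tg
  cι := h.cι.comp ct_cont
  comp g x := by
    rw [MonoidHom.comp_apply, h.comp', ct_ct]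
  comp' g x := by
    rw [MonoidHom.comp_apply, h.comp]
  ort e x l := by
    rw [inc_comm, h.ort, inc_comm]

/-- the common stabiliser of the point `y0` and of the hyperplane `y0` commutes with the wall
element -/
def Cz (w : kˣ) (ι : GG k N →* E) (a a' : E →* PG k (N + 1)) : Prop :=
  ∀ e, a e • (y0 : YY k N) = y0 → a' e • (y0 : YY k N) = y0 → Commute (ι (bw w)) e

theorem Cz.dual {w : kˣ} (h : Cz w ι a a') : Cz w (ι.comp ct) a' a := fun e h1 h2 => by
  rw [MonoidHom.comp_apply, ct_bw, map_inv]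
  exact (h e h2 h1).inv_left

theorem b_dual (ι : GG k N →* E) (w : kˣ) : (ι.comp ct) (bw w) = (ι (bw w))⁻¹ := by
  rw [MonoidHom.comp_apply, ct_bw, map_inv]

/-- the elements of the unipotent radical are contracted -/
theorem Ad0.ur_mem (h : Ad0 ι a a') {w : kˣ} (hw : ‖(w : k)‖ < 1) (φ : Fin (N + 1) → k) :
    ι (ur 0 φ) ∈ Ctr (ι (bw w))⁻¹ := by
  rw [mem_ctr_inv]
  have h1 := (h.cι.tendsto 1).comp (ur_ctr hw φ)
  rw [map_one] at h1
  refine h1.congr fun i => ?_
  simp only [Function.comp_apply, map_mul, map_inv, map_pow]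

/-- the elements of the opposite unipotent radical are contracted in the other direction -/
theorem Ad0.ur_mem' (h : Ad0 ι a a') {w : kˣ} (hw : ‖(w : k)‖ < 1) (φ : Fin (N + 1) → k) :
    ι (ct (ur 0 φ)) ∈ Ctr (ι (bw w)) := by
  have h1 := h.dual.ur_mem hw φ
  rw [b_dual, inv_inv] at h1
  exact h1

/-- **The stabiliser of the point `y0`.** -/
theorem Ad0.stab (h : Ad0 ι a a') {w : kˣ} (hw : ‖(w : k)‖ < 1) (hz : Cz w ι a a') (e : E)
    (he : a e • (y0 : YY k N) = y0) : ∃ v n, e = v * n ∧ v * ι (bw w) = ι (bw w) * v ∧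
      n ∈ Ctr (ι (bw w))⁻¹ := by
  have h1 : a e⁻¹ • (y0 : YY k N) = y0 := by
    rw [map_inv, inv_smul_eq_iff, he]
  obtain ⟨l, hl⟩ : ∃ l : YY k N, l = a' e⁻¹ • (y0 : YY k N) := ⟨_, rfl⟩
  have h2 : ¬ inc (y0 : YY k N) l := by
    intro h3
    rw [hl, ← h1, h.ort, h1] at h3
    exact not_inc_y0 h3
  induction l using Projectivization.ind with | h v hv => ?_
  rw [inc_y0_mk'] at h2
  obtain ⟨φ, hφ⟩ : ∃ φ : Fin (N + 1) → k, φ = fun x => - (v x / v 0) := ⟨_, rfl⟩
  have h3 : ct (ur 0 φ : GG k N) • (y0 : YY k N) = Projectivization.mk k v hv := by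
    rw [hφ]
    exact ct_ur_y0 v hv h2
  have h4 : a (e * ι (ur 0 φ)) • (y0 : YY k N) = y0 := by
    rw [map_mul, mul_smul, h.comp, ur_y0, he]
  have h5 : a' (e * ι (ur 0 φ)) • (y0 : YY k N) = y0 := by
    rw [map_mul, mul_smul, h.comp', h3, hl, map_inv, smul_inv_smul]
  refine ⟨e * ι (ur 0 φ), (ι (ur 0 φ))⁻¹, by group, (hz _ h4 h5).eq.symm, ?_⟩
  have h6 : (ι (ur 0 φ))⁻¹ = ι (ur 0 (-φ)) := by rw [← map_inv, ur_inv]
  rw [h6]
  exact h.ur_mem hw _

/-- Every point is the image of `y0` by a product of contracted elements. -/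
theorem Ad0.reach (h : Ad0 ι a a') {w : kˣ} (hw : ‖(w : k)‖ < 1) (x : YY k N) :
    ∃ e ∈ Subgroup.closure (Ctr (ι (bw w)) ∪ Ctr (ι (bw w))⁻¹), a e • (y0 : YY k N) = x := by
  -- points off the hyperplane `y0`
  have key : ∀ (v : Fin (N + 1) → k) (hv : v ≠ 0), v 0 ≠ 0 →
      ∃ e ∈ Subgroup.closure (Ctr (ι (bw w)) ∪ Ctr (ι (bw w))⁻¹),
        a e • (y0 : YY k N) = Projectivization.mk k v hv := fun v hv h0 =>
    ⟨ι (ct (ur 0 (fun x => - (v x / v 0)))), Subgroup.subset_closure (Or.inl (h.ur_mem' hw _)),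
      by rw [h.comp, ct_ur_y0 v hv h0]⟩
  induction x using Projectivization.ind with | h v hv => ?_
  by_cases h0 : v 0 = 0
  · obtain ⟨j, hj⟩ : ∃ j, v j ≠ 0 := by
      by_contra hc
      push Not at hc
      exact hv (funext hc)
    have hj0 : j ≠ 0 := fun hh => hj (hh ▸ h0)
    obtain ⟨u, hu⟩ : ∃ u : GG k N, u = ur 0 (Pi.single j 1) := ⟨_, rfl⟩
    have h1 : (u.1 *ᵥ v) 0 ≠ 0 := by
      rw [hu, ur_mulVec]
      have h2 : (∑ y : Fin (N + 1), if y ≠ 0 then (Pi.single j (1 : k) : Fin (N + 1) → k) y * v y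
          else 0) = v j := by
        rw [Finset.sum_eq_single j]
        · simp [hj0]
        · intro y _ hy
          simp [hy]
        · intro hh
          exact absurd (Finset.mem_univ j) hh
      rw [h2, Pi.add_apply, h0, Pi.smul_apply]
      simpa using hj
    have h3 : u.1 *ᵥ v ≠ 0 := fun hh => h1 (by rw [hh]; rfl)
    obtain ⟨e, he, h4⟩ := key _ h3 h1
    refine ⟨(ι u)⁻¹ * e, Subgroup.mul_mem _ (Subgroup.inv_mem _ (Subgroup.subset_closure
      (Or.inr ?_))) he, ?_⟩
    · rw [hu]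
      exact h.ur_mem hw _
    · rw [map_mul, mul_smul, h4, map_inv, inv_smul_eq_iff, h.comp]
      rfl
  · exact key v hv h0

/-- **Transitivity.** -/
theorem Ad0.trans (h : Ad0 ι a a') {w : kˣ} (hw : ‖(w : k)‖ < 1) (x : YY k N) :
    ∃ e, a e • (y0 : YY k N) = x := by
  obtain ⟨e, -, he⟩ := h.reach hw x
  exact ⟨e, he⟩

/-- **Generation.** -/
theorem Ad0.gen (h : Ad0 ι a a') {w : kˣ} (hw : ‖(w : k)‖ < 1) (hz : Cz w ι a a') :
    Subgroup.closure (Ctr (ι (bw w)) ∪ Ctr (ι (bw w))⁻¹ ∪ Cen (ι (bw w))) = ⊤ := by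
  rw [eq_top_iff]
  intro e _
  obtain ⟨g, hg, h1⟩ := h.reach hw (a e • (y0 : YY k N))
  have h2 : a (g⁻¹ * e) • (y0 : YY k N) = y0 := by
    rw [map_mul, mul_smul, ← h1, map_inv, inv_smul_smul]
  obtain ⟨v, n, h3, h4, h5⟩ := h.stab hw hz _ h2
  have h6 : e = g * (v * n) := by rw [← h3, mul_inv_cancel_left]
  rw [h6]
  refine Subgroup.mul_mem _ (Subgroup.closure_mono Set.subset_union_left hg)
    (Subgroup.mul_mem _ (Subgroup.subset_closure (Or.inr ?_))
      (Subgroup.subset_closure (Or.inl (Or.inr h5))))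
  exact h4.symm

/-- A Moore set contained in the stabiliser of `y0`. -/
theorem Ad0.moore (h : Ad0 ι a a') {w : kˣ} (hw : ‖(w : k)‖ < 1) (hz : Cz w ι a a') {S : Set E}
    (hS : Moore S) (hS0 : ∀ e ∈ S, a e • (y0 : YY k N) = y0) :
    Moore (Ctr (ι (bw w))⁻¹ ∪ Cen (ι (bw w))) := by
  intro F _ _ _ u hu hc ξ hξ
  refine hS F u hu hc ξ fun e he => ?_
  obtain ⟨v, n, h3, h4, h5⟩ := h.stab hw hz e (hS0 e he)
  rw [h3, map_mul]
  change u v (u n ξ) = ξ
  rw [hξ n (Or.inl h5), hξ v (Or.inr h4.symm)]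

end adm

section main

variable {k : Type} [NontriviallyNormedField k] {N : ℕ} {E : Type} [Group E]
  [TopologicalSpace E] {ι : GG k N →* E} {a a' : E →* PG k (N + 1)}

theorem prv_line {e : E} (he : Prv a (y0 : YY k N).submodule e) : a e • (y0 : YY k N) = y0 := by
  have h1 := (he y0).1 le_rfl
  exact Projectivization.submodule_injective
    (Submodule.eq_of_le_of_finrank_eq h1
      ((Projectivization.finrank_submodule _).trans (Projectivization.finrank_submodule _).symm))

theorem prv_hyp (h : Ad0 ι a a') {e : E}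
    (he : Prv a (hypS k (0 : Fin (N + 1))) e) : a' e • (y0 : YY k N) = y0 := by
  have h1 : ∀ x : YY k N, x.submodule ≤ hypS k (0 : Fin (N + 1)) ↔ inc x y0 := by
    intro x
    induction x using Projectivization.ind with | h v hv => ?_
    rw [Projectivization.submodule_mk, Submodule.span_singleton_le_iff_mem, mem_hypS, inc_y0_mk]
  refine eq_y0_of_inc fun x hx => ?_
  have h2 : x = a e • (a e⁻¹ • x) := by rw [map_inv, smul_inv_smul]
  rw [h2, h.ort, ← h1, he (a e⁻¹ • x), ← h2, h1]
  exact hx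

/-- **The source geometry of an admissible group.** -/
theorem geoE_of_adm (h : Adm ι a a') {w : kˣ} (hw : ‖(w : k)‖ < 1) (hz : Cz w ι a a') :
    GeoE (ι (bw w)) (z0 a) (z0 a') where
  trans₁ := (ad0_of h).trans hw
  stab₁ e he := by
    obtain ⟨v, n, h1, h2, h3⟩ := (ad0_of h).stab hw hz e he
    exact ⟨v, n, h1, h2, mem_ctr_inv.1 h3⟩
  trans₂ := (ad0_of h).dual.trans hw
  stab₂ e he := by
    obtain ⟨v, n, h1, h2, h3⟩ := (ad0_of h).dual.stab hw hz.dual e he
    rw [b_dual] at h2 h3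
    rw [inv_inv] at h3
    refine ⟨v, n, h1, ?_, h3⟩
    have h4 : Commute v (ι (bw w))⁻¹ := h2
    exact (inv_inv (ι (bw w)) ▸ h4.inv_right).eq
  moore := by
    have h1 := (ad0_of h).dual.moore hw hz.dual
      (h.stb (hypS k (0 : Fin (N + 1))) (hypS k (0 : Fin (N + 1))))
      fun e he => prv_hyp (ad0_of h) he.1
    rw [b_dual, inv_inv] at h1
    intro F _ _ _ u hu hc ξ hξ
    refine h1 F u hu hc ξ fun e he => ?_
    rcases he with he | he
    · exact hξ e (Or.inl he)
    · refine hξ e (Or.inr ?_)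
      have h2 : Commute (ι (bw w))⁻¹ e := he
      have h3 := h2.inv_left
      rwa [inv_inv] at h3
  moore' := (ad0_of h).moore hw hz
    (h.stb (y0 : YY k N).submodule (y0 : YY k N).submodule) fun e he => prv_line he.1
  cl := (ad0_of h).gen hw hz

end main

end Vale.Agent.P092.H368.SN
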