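import Vale.Agent.P092.H35.Spg
import Vale.Agent.P092.H368.SN.GeoA

/-!
P092 (helper368), Team N, block [N-EX], source geometry: `a (ι g)` is the class of `g`, and the
powers of the wall element tend to infinity in every admissible source group.
-/

set_option linter.all false

open scoped InnerProductSpace ENNReal LinearAlgebra.Projectivization
open Filter Topology Matrix

namespace Vale.Agent.P092.H368.SN

open Vale.Agent.P092.RC (Moore GG PG YY y0 ct)
open Vale.Agent.P092.SN (Prv Adm inc bw)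
open Vale.Agent.P092.H35 (sp mkP)

section coc

variable {k : Type} [NontriviallyNormedField k] {N : ℕ} {E : Type} [Group E]
  [TopologicalSpace E] {ι : GG k N →* E} {a a' : E →* PG k (N + 1)}

/-- the action of `PGL` is faithful -/
theorem pg_faithful {x y : PG k (N + 1)} (h : ∀ z : YY k N, x • z = y • z) : x = y := by
  have h1 : x⁻¹ * y = 1 := H789.eq_one_of_fix _ fun i => by
    rw [mul_smul, ← h, inv_smul_smul]
  exact (inv_mul_eq_one.1 h1)

theorem Ad0.a_ι (h : Ad0 ι a a') (g : GG k N) : a (ι g) = sp k (N + 1) g :=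
  pg_faithful fun z => by rw [h.comp]; rfl

theorem Ad0.a'_ι (h : Ad0 ι a a') (g : GG k N) : a' (ι g) = sp k (N + 1) (ct g) :=
  pg_faithful fun z => by rw [h.comp']; rfl

theorem bw_pow_entry (w : kˣ) (n : ℕ) :
    ((bw w : GG k N) ^ n).1 0 0 = ((((w⁻¹ : kˣ) : k) ^ N)) ^ n := by
  rw [Matrix.SpecialLinearGroup.coe_pow]
  change ((Matrix.diagonal _ : Matrix (Fin (N + 1)) (Fin (N + 1)) k) ^ n) 0 0 = _
  rw [Matrix.diagonal_pow, Matrix.diagonal_apply_eq]
  simp

/-- **`b ^ n → ∞`.** -/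
theorem pow_cocompact (h : Adm ι a a') {w : kˣ} (hw : ‖(w : k)‖ < 1) :
    Tendsto (fun n : ℕ => ι (bw w) ^ n) atTop (cocompact E) := by
  have hN : 2 ≤ N := h.hN
  have hwi : 1 < ‖((w⁻¹ : kˣ) : k)‖ ^ N := by
    refine one_lt_pow₀ ?_ (by omega)
    rw [Units.val_inv_eq_inv_val, norm_inv]
    exact (one_lt_inv₀ (norm_pos_iff.2 w.ne_zero)).2 hw
  intro s hs
  obtain ⟨K, hK, hKs⟩ := mem_cocompact.1 hs
  obtain ⟨R, hR⟩ := (hK.image (H35.np_cont.comp h.ca)).bddAbove
  have h1 : Tendsto (fun n : ℕ => (‖((w⁻¹ : kˣ) : k)‖ ^ N) ^ n) atTop atTop :=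
    tendsto_pow_atTop_atTop_of_one_lt hwi
  rw [mem_map]
  filter_upwards [h1.eventually_gt_atTop (max 1 R)] with n hn
  refine hKs fun hx => ?_
  have h2 : H35.np (a (ι (bw w) ^ n)) ≤ R := hR ⟨_, hx, rfl⟩
  rw [← map_pow, (ad0_of h).a_ι, H35.np_sp] at h2
  have h3 : (‖((w⁻¹ : kˣ) : k)‖ ^ N) ^ n ≤ H35.nmx ((bw w : GG k N) ^ n).1 := by
    have h4 := H35.le_nmx ((bw w : GG k N) ^ n).1 0 0
    rw [bw_pow_entry, norm_pow, norm_pow] at h4
    exact h4
  have h5 : 1 < H35.nmx ((bw w : GG k N) ^ n).1 := ((le_max_left 1 R).trans_lt hn).trans_le h3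
  have h6 : H35.nmx ((bw w : GG k N) ^ n).1 ≤ H35.nmx ((bw w : GG k N) ^ n).1 ^ (N + 1) :=
    le_self_pow₀ h5.le (by omega)
  have h7 : R < H35.nmx ((bw w : GG k N) ^ n).1 := ((le_max_right 1 R).trans_lt hn).trans_le h3
  linarith

end coc

end Vale.Agent.P092.H368.SN
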