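import Vale.Agent.P092.H387.Ad2
import Vale.Agent.P092.H368.SN.GeoA

/-!
P092 (helper368), Team N, block [N-EX], source geometry: the condition `Cz` (the common stabiliser
of the point `y0` and of the hyperplane `y0` commutes with the wall element) for `SL_n(k)`,
`SL_n(k) ⧸ Z`, `PGL_n(k)` and products.
-/

set_option linter.all false

open scoped InnerProductSpace ENNReal LinearAlgebra.Projectivization
open Filter Topology Matrix

namespace Vale.Agent.P092.H368.SN

open Vale.Agent.P092.RC (Moore GG PG YY y0 ct)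
open Vale.Agent.P092.SN (Prv Adm inc bw)
open Vale.Agent.P092.H933 (LocK)
open Vale.Agent.P092.H35 (sp mkP)
open Vale.Agent.P092.H644.PGr (tauG tauP tauP_cont tauP_can pair_gl)
open Vale.Agent.P092.H387.Ad (spq)

section cz

variable {k : Type} [NontriviallyNormedField k] {N : ℕ}

theorem comm_of_fix {g : GL (Fin (N + 1)) k} (h1 : mkP k (N + 1) g • (y0 : YY k N) = y0)
    (h2 : ∀ x : YY k N, inc x y0 → inc (mkP k (N + 1) g • x) y0) (w : kˣ) :
    Commute (SpecialLinearGroup.toGL (bw w : GG k N)) g := by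
  have c1 : ∀ x, x ≠ 0 → g.1 x 0 = 0 := by
    intro x hx
    have e1 : mkP k (N + 1) g • (y0 : YY k N) = Projectivization.mk k
        (g • (Pi.single 0 (1 : k) : Fin (N + 1) → k)) ((smul_ne_zero_iff_ne g).2 y0_ne) := rfl
    rw [e1] at h1
    obtain ⟨c, hc⟩ := (Projectivization.mk_eq_mk_iff' k _ _ _ _).1 h1
    have e2 : (g • (Pi.single 0 (1 : k) : Fin (N + 1) → k)) x = g.1 x 0 := by
      change (g.1 *ᵥ Pi.single 0 1) x = _
      rw [Matrix.mulVec_single_one]
      rfl
    rw [← e2, ← hc]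
    simp [hx]
  have c2 : ∀ x, x ≠ 0 → g.1 0 x = 0 := by
    intro x hx
    have hne : (Pi.single x 1 : Fin (N + 1) → k) ≠ 0 := fun h => by
      have := congrFun h x
      simp at this
    have e1 : mkP k (N + 1) g • (Projectivization.mk k (Pi.single x 1) hne : YY k N) =
        Projectivization.mk k (g • (Pi.single x (1 : k) : Fin (N + 1) → k))
          ((smul_ne_zero_iff_ne g).2 hne) := rfl
    have e3 := h2 (Projectivization.mk k (Pi.single x 1) hne)
      ((inc_y0_mk _ hne).2 (by simp [Ne.symm hx]))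
    rw [e1, inc_y0_mk] at e3
    have e2 : (g • (Pi.single x (1 : k) : Fin (N + 1) → k)) 0 = g.1 0 x := by
      change (g.1 *ᵥ Pi.single x 1) 0 = _
      rw [Matrix.mulVec_single_one]
      rfl
    rw [← e2]
    exact e3
  apply Units.ext
  change (bw w : GG k N).1 * g.1 = g.1 * (bw w : GG k N).1
  rw [bw_eq, wl_coe]
  ext x y
  rw [Matrix.mul_diagonal, Matrix.diagonal_mul]
  by_cases h : g.1 x y = 0
  · rw [h, zero_mul, mul_zero]
  · have h3 : wdg 0 w x = wdg 0 w y := by
      by_cases hx : x = 0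
      · by_cases hy : y = 0
        · rw [hx, hy]
        · exact absurd (by rw [hx]; exact c2 y hy) h
      · by_cases hy : y = 0
        · exact absurd (by rw [hy]; exact c1 x hx) h
        · rw [wdg, wdg, if_neg hx, if_neg hy]
    rw [h3, mul_comm]

variable {E : Type} [Group E] [TopologicalSpace E] {ι : GG k N →* E} {a a' : E →* PG k (N + 1)}

/-- general form -/
theorem comm_gl (h : Ad0 ι a a') {e : E} {g : GL (Fin (N + 1)) k} (hg : a e = mkP k (N + 1) g)
    (h1 : a e • (y0 : YY k N) = y0) (h2 : a' e • (y0 : YY k N) = y0) (w : kˣ) :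
    Commute (SpecialLinearGroup.toGL (bw w : GG k N)) g := by
  refine comm_of_fix (by rw [← hg, h1]) (fun x hx => ?_) w
  rw [← hg, ← h2, h.ort]
  exact hx

/-- **`SL_n(k)`** -/
theorem cz_sl {a' : GG k N →* PG k (N + 1)}
    (h : Ad0 (MonoidHom.id (GG k N)) (sp k (N + 1)) a') (w : kˣ) :
    Cz w (MonoidHom.id (GG k N)) (sp k (N + 1)) a' := fun e h1 h2 => by
  have h3 := comm_gl h (g := SpecialLinearGroup.toGL e) rfl h1 h2 w
  apply Subtype.ext
  exact congrArg Units.val h3.eq

/-- **`SL_n(k) ⧸ Z`** -/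
theorem cz_psl (Z : Subgroup (GG k N)) [Z.Normal] (hZ : Z ≤ Subgroup.center (GG k N))
    {a' : GG k N ⧸ Z →* PG k (N + 1)} (h : Ad0 (QuotientGroup.mk' Z) (spq k N Z hZ) a')
    (w : kˣ) : Cz w (QuotientGroup.mk' Z) (spq k N Z hZ) a' := fun e h1 h2 => by
  obtain ⟨s, rfl⟩ := QuotientGroup.mk'_surjective Z e
  have h3 := comm_gl h (g := SpecialLinearGroup.toGL s) rfl h1 h2 w
  have h4 : Commute (bw w : GG k N) s := by
    apply Subtype.ext
    exact congrArg Units.val h3.eq
  exact h4.map (QuotientGroup.mk' Z)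

/-- **`PGL_n(k)`** -/
theorem cz_pgl {a' : PG k (N + 1) →* PG k (N + 1)}
    (h : Ad0 (sp k (N + 1)) (MonoidHom.id (PG k (N + 1))) a') (w : kˣ) :
    Cz w (sp k (N + 1)) (MonoidHom.id (PG k (N + 1))) a' := fun e h1 h2 => by
  obtain ⟨g, rfl⟩ := H35.mkP_surj e
  exact (comm_gl h (g := g) rfl h1 h2 w).map (mkP k (N + 1))

/-- **Products** -/
theorem cz_pi {I : Type} [DecidableEq I] {E : I → Type} [∀ i, Group (E i)]
    [∀ i, TopologicalSpace (E i)] (i : I) {ι : GG k N →* E i} {a a' : E i →* PG k (N + 1)}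
    {w : kˣ} (h : Cz w ι a a') : Cz w ((MonoidHom.mulSingle E i).comp ι)
      (a.comp (Pi.evalMonoidHom E i)) (a'.comp (Pi.evalMonoidHom E i)) := fun e h1 h2 => by
  have h3 : Commute (ι (bw w)) (e i) := h (e i) h1 h2
  funext j
  change (Pi.mulSingle i (ι (bw w)) * e) j = (e * Pi.mulSingle i (ι (bw w))) j
  rw [Pi.mul_apply, Pi.mul_apply]
  by_cases hj : j = i
  · subst hj
    rw [Pi.mulSingle_eq_same]
    exact h3.eq
  · rw [Pi.mulSingle_eq_of_ne hj, one_mul, mul_one]

end cz

end Vale.Agent.P092.H368.SN
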