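import Vale.Agent.P092.H368.SN.Fam
import Vale.Agent.P092.H142.Eng
import Vale.Agent.P092.H859.CNA
import Vale.Agent.P092.H43.LocN

/-!
P092 (helper368), TEAM N, block [N-ENG]: from the output of the general engine (`H859/CNA`) at one
wall element `b` to the family of boundary calculi `FamG` (`SN/Fam`). Abstract form of `H142/Asm`,
`H142/Eng`, `H142/Shf`: any source group `D`, any homogeneous space `X`, any target space `Y`.
-/

set_option linter.all false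

open scoped InnerProductSpace ENNReal Pointwise
open Filter Topology ContinuousLinearMap MeasureTheory TopologicalSpace

namespace Vale.Agent.P092.H368.SN

open Vale.Agent.P092.RC (Cm)
open Vale.Agent.P092.H859.CL
open Vale.Agent.P092.H142 (mc_cut mc_nrm LU2)
open Vale.Agent.P092.H107 (LocAt)
open Vale.Agent.P092.H553 (ind ind_nonneg ind_le_one abs_ind_le ind_pos ind_neg)

section cj

variable {Y G K : Type} [TopologicalSpace Y] [CompactSpace Y]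
  [Group G] [NormedAddCommGroup K] [InnerProductSpace ℂ K] [CompleteSpace K]

/-- conjugation of a *-homomorphism by a unitary representation -/
noncomputable def cjY (π : G →* (K →L[ℂ] K)) (hπ : ∀ g, adjoint (π g) = π g⁻¹) (g : G)
    (E : C(Y, ℂ) →⋆ₐ[ℂ] (K →L[ℂ] K)) : C(Y, ℂ) →⋆ₐ[ℂ] (K →L[ℂ] K) where
  toFun f := π g * E f * π g⁻¹
  map_one' := by
    rw [map_one, mul_one, ← map_mul, mul_inv_cancel, map_one]
  map_mul' f h := by
    have h1 : π g⁻¹ * π g = 1 := by rw [← map_mul, inv_mul_cancel, map_one]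
    rw [map_mul]
    calc π g * (E f * E h) * π g⁻¹ = π g * E f * (1 * (E h * π g⁻¹)) := by
          simp only [one_mul, mul_assoc]
      _ = π g * E f * (π g⁻¹ * π g * (E h * π g⁻¹)) := by rw [h1]
      _ = _ := by simp only [mul_assoc]
  map_zero' := by rw [map_zero, mul_zero, zero_mul]
  map_add' f h := by rw [map_add, mul_add, add_mul]
  commutes' c := by
    have h2 : E (algebraMap ℂ C(Y, ℂ) c) = algebraMap ℂ (K →L[ℂ] K) c := AlgHomClass.commutes E c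
    have h3 : π g * π g⁻¹ = 1 := by rw [← map_mul, mul_inv_cancel, map_one]
    change π g * E (algebraMap ℂ C(Y, ℂ) c) * π g⁻¹ = _
    rw [h2, Algebra.algebraMap_eq_smul_one, mul_smul_comm, mul_one, smul_mul_assoc, h3]
  map_star' f := by
    rw [map_star, star_mul, star_mul]
    have h1 : star (π g⁻¹) = π g := by
      rw [star_eq_adjoint, hπ, inv_inv]
    have h2 : star (π g) = π g⁻¹ := by rw [star_eq_adjoint, hπ]
    rw [h1, h2, mul_assoc]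

theorem cjY_apply (π : G →* (K →L[ℂ] K)) (hπ : ∀ g, adjoint (π g) = π g⁻¹) (g : G)
    (E : C(Y, ℂ) →⋆ₐ[ℂ] (K →L[ℂ] K)) (f : C(Y, ℂ)) : cjY π hπ g E f = π g * E f * π g⁻¹ := rfl

end cj

section asm

variable {D X Γ K Y : Type} [Group D] [TopologicalSpace D] [MulAction D X] [Group Γ]
  [TopologicalSpace Y] [CompactSpace Y] [MulAction Γ Y] [NormedAddCommGroup K]
  [InnerProductSpace ℂ K] [CompleteSpace K]

/-- The output of the engine at the wall element `b`. -/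
structure EOutG (b : D) (π : D →* (K →L[ℂ] K)) (lam : Γ →* (K →L[ℂ] K))
    (W : Set (K →L[ℂ] K)) (mp : (Γ → ℝ) → (K →L[ℂ] K)) (G1 G2 : Γ → ℝ)
    (bp : Γ → Y) (E : C(Y, ℂ) →⋆ₐ[ℂ] (K →L[ℂ] K)) : Prop where
  lim : ∀ (f : C(Y, ℂ)) (ξ : K), Tendsto (fun N : ℕ =>
    PC mp (fun g => π g) (b ^ N)⁻¹ (cfc G1 G2 bp f) ξ) atTop (𝓝 (E f ξ))
  cm : ∀ f, Cm W (E f)
  cov : ∀ (γ : Γ) (f f' : C(Y, ℂ)), (∀ y, f' (γ • y) = f y) → lam γ * E f * lam γ⁻¹ = E f'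
  con : ∀ n, Tendsto (fun N : ℕ => (b ^ N)⁻¹ * n * b ^ N) atTop (𝓝 1) →
    ∀ f, π n * E f = E f * π n
  cen : ∀ v, v * b = b * v → ∀ f, π v * E f = E f * π v
  /-- (LU2) for functions of the base point -/
  lu2 : ∀ (f : C(Y, ℂ)) (v : D) (ξ : K), Tendsto (fun N : ℕ =>
    ⟪π v (π (b ^ N)⁻¹ ξ), mc mp (cfc G1 G2 bp f) (π v (π (b ^ N)⁻¹ ξ))⟫_ℂ -
      ⟪π (b ^ N)⁻¹ ξ, mc mp (cfc G1 G2 bp f) (π (b ^ N)⁻¹ ξ)⟫_ℂ) atTop (𝓝 0)
  /-- no finite and no regular mass -/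
  ngl : ∀ (v : D) (ξ : K) (ε : ℝ), 0 < ε → ∃ r, ∀ T, ∀ᶠ N : ℕ in atTop,
    ‖st mp (FF G1 G2 T ∪ BB G1 G2 r) (π v (π (b ^ N)⁻¹ ξ))‖ ≤ ε

/-- The geometric input at the level of the cut-offs. -/
def DomCutG {Γ Y : Type} (Dm : ℝ → ℝ → Set Y → Set Γ) (G1 G2 : Γ → ℝ) (bp : Γ → Y) : Prop :=
  ∀ r, ∃ R : ℝ, ∀ T > 0, ∃ T' : ℝ, ∀ A : Set Y,
    cn G1 G2 bp A ⊆ Dm R T A ∪ (FF G1 G2 T' ∪ BB G1 G2 r)

variable {b : D} {x₀ : X} {π : D →* (K →L[ℂ] K)} {lam : Γ →* (K →L[ℂ] K)}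
  {W : Set (K →L[ℂ] K)} {mp : (Γ → ℝ) → (K →L[ℂ] K)} {G1 G2 : Γ → ℝ} {bp : Γ → Y}
  {Dm : ℝ → ℝ → Set Y → Set Γ} {Br : ℝ → Set Γ} {Bd Bf : Set K} {ms : D → Set Γ → ℝ}

theorem cfcY_norm (f : C(Y, ℂ)) (g : Γ) : ‖cfc G1 G2 bp f g‖ ≤ ‖f‖ :=
  Vale.Agent.P092.H859.CL.cfc_norm (fun y => f.norm_coe_le_norm y) g

/-- The square of the norm of a cut-off. -/
theorem mcY_sq (h : Fn mp) (u : C(Y, ℂ)) (x : K) :
    ((‖mc mp (cfc G1 G2 bp u) x‖ ^ 2 : ℝ) : ℂ) =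
      ⟪x, mc mp (cfc G1 G2 bp (star u * u : C(Y, ℂ))) x⟫_ℂ := by
  have hb : ∀ f : C(Y, ℂ), ∀ g, ‖cfc G1 G2 bp f g‖ ≤ ‖f‖ := fun f => cfcY_norm f
  have e : cfc G1 G2 bp (star u * u : C(Y, ℂ)) =
      fun g => (starRingEnd ℂ) (cfc G1 G2 bp u g) * cfc G1 G2 bp u g := by
    funext g
    have h1 : ind (fun g => G2 g ≤ G1 g) g * ind (fun g => G2 g ≤ G1 g) g =
        ind (fun g => G2 g ≤ G1 g) g := by
      by_cases hg : G2 g ≤ G1 g
      · rw [ind_pos (P := fun g => G2 g ≤ G1 g) hg, one_mul]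
      · rw [ind_neg (P := fun g => G2 g ≤ G1 g) hg, zero_mul]
    have h2 : ((ind (fun g => G2 g ≤ G1 g) g : ℝ) : ℂ) * (ind (fun g => G2 g ≤ G1 g) g : ℝ) =
        (ind (fun g => G2 g ≤ G1 g) g : ℝ) := by
      rw [← Complex.ofReal_mul, h1]
    simp only [H859.CL.cfc, map_mul, Complex.conj_ofReal, ContinuousMap.mul_apply,
      ContinuousMap.star_apply, Complex.star_def]
    linear_combination (-((starRingEnd ℂ) (u (bp g)) * u (bp g))) * h2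
  rw [e, mc_mul h (F := fun g => (starRingEnd ℂ) (cfc G1 G2 bp u g)) (C := ‖u‖)
    (fun g => by rw [RCLike.norm_conj]; exact hb u g) (hb u), ← mc_adj h (hb u)]
  change _ = ⟪x, adjoint (mc mp (cfc G1 G2 bp u)) (mc mp (cfc G1 G2 bp u) x)⟫_ℂ
  rw [adjoint_inner_right, inner_self_eq_norm_sq_to_K]
  norm_cast

/-- The domination along a conjugate. -/
theorem domG_of (h : Fn mp) (hcut : DomCutG Dm G1 G2 bp) {E : C(Y, ℂ) →⋆ₐ[ℂ] (K →L[ℂ] K)}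
    (hE : EOutG b π lam W mp G1 G2 bp E) (hπ : ∀ g, adjoint (π g) = π g⁻¹)
    (g : D) (u : C(Y, ℂ)) (A0 : Set Y) (hu : tsupport u ⊆ A0) (ζ : K) {ε : ℝ}
    (hε : 0 < ε) :
    ∃ R : ℝ, ∀ T > 0, ∀ᶠ N : ℕ in atTop,
      ‖cjY π hπ g E u ζ‖ ≤ ‖u‖ * ‖st mp (Dm R T A0) (π (g * b ^ N * g⁻¹)⁻¹ ζ)‖ + ε := by
  have hprj : Prj (st mp) := h.prj
  obtain ⟨F, hF⟩ : ∃ F : Γ → ℂ, F = cfc G1 G2 bp u := ⟨_, rfl⟩
  have hFn : ∀ g, ‖F g‖ ≤ ‖u‖ := fun g => by rw [hF]; exact cfcY_norm u g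
  have hiso : ∀ (v : D) (x : K), ‖π v x‖ = ‖x‖ := by
    intro v x
    have h1 : ⟪π v x, π v x⟫_ℂ = ⟪x, x⟫_ℂ := by
      rw [← adjoint_inner_right, hπ]
      have h2 : π v⁻¹ (π v x) = x := by
        have h3 : π v⁻¹ * π v = 1 := by rw [← map_mul, inv_mul_cancel, map_one]
        exact congrArg (fun T : K →L[ℂ] K => T x) h3
      rw [h2]
    rw [inner_self_eq_norm_sq_to_K, inner_self_eq_norm_sq_to_K] at h1
    have h4 : ‖π v x‖ ^ 2 = ‖x‖ ^ 2 := by exact_mod_cast h1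
    exact (sq_eq_sq₀ (norm_nonneg _) (norm_nonneg _)).1 h4
  -- (LU2)
  have hsq : Tendsto (fun N : ℕ => ‖mc mp F (π g (π (b ^ N)⁻¹ (π g⁻¹ ζ)))‖ ^ 2 -
      ‖mc mp F (π (b ^ N)⁻¹ (π g⁻¹ ζ))‖ ^ 2) atTop (𝓝 0) := by
    have h1 := (Complex.continuous_re.tendsto _).comp (hE.lu2 (star u * u) g (π g⁻¹ ζ))
    rw [Complex.zero_re] at h1
    refine h1.congr fun N => ?_
    simp only [Function.comp_apply]
    rw [← mcY_sq h u, ← mcY_sq h u, Complex.sub_re, Complex.ofReal_re, Complex.ofReal_re, ← hF]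
  obtain ⟨r, hr⟩ := hE.ngl g (π g⁻¹ ζ) (ε / (4 * (‖u‖ + 1))) (by positivity)
  obtain ⟨R, hR⟩ := hcut r
  refine ⟨R, fun T hT => ?_⟩
  obtain ⟨T', hT'⟩ := hR T hT
  have hlim := hE.lim u (π g⁻¹ ζ)
  filter_upwards [hr T', (Metric.tendsto_nhds.mp hsq) ((ε / 4) ^ 2) (by positivity),
    (Metric.tendsto_nhds.mp hlim) (ε / 4) (by positivity)] with N n1 n2 n3
  rw [dist_zero_right, Real.norm_eq_abs] at n2
  rw [dist_eq_norm] at n3
  -- the vector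
  have e0 : π (g * b ^ N * g⁻¹)⁻¹ ζ = π g (π (b ^ N)⁻¹ (π g⁻¹ ζ)) := by
    have : (g * b ^ N * g⁻¹)⁻¹ = g * ((b ^ N)⁻¹ * g⁻¹) := by group
    rw [this, map_mul, map_mul]
    rfl
  rw [e0]
  obtain ⟨x, hx⟩ : ∃ x, x = π g (π (b ^ N)⁻¹ (π g⁻¹ ζ)) := ⟨_, rfl⟩
  rw [← hx] at n1 n2 ⊢
  have s1 : ‖cjY π hπ g E u ζ‖ = ‖E u (π g⁻¹ ζ)‖ := by
    rw [cjY_apply]
    exact hiso g _
  have s2 : ‖E u (π g⁻¹ ζ)‖ ≤
      ‖PC mp (fun g => π g) (b ^ N)⁻¹ (cfc G1 G2 bp u) (π g⁻¹ ζ)‖ + ε / 4 := by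
    have h4 : E u (π g⁻¹ ζ) = PC mp (fun g => π g) (b ^ N)⁻¹ (cfc G1 G2 bp u) (π g⁻¹ ζ) -
      (PC mp (fun g => π g) (b ^ N)⁻¹ (cfc G1 G2 bp u) (π g⁻¹ ζ) - E u (π g⁻¹ ζ)) := by abel
    rw [h4]
    exact (norm_sub_le _ _).trans (by linarith)
  have s3 : ‖PC mp (fun g => π g) (b ^ N)⁻¹ (cfc G1 G2 bp u) (π g⁻¹ ζ)‖ =
      ‖mc mp F (π (b ^ N)⁻¹ (π g⁻¹ ζ))‖ := by
    rw [← hF]
    exact hiso _ _
  have s4 : ‖mc mp F (π (b ^ N)⁻¹ (π g⁻¹ ζ))‖ ≤ ‖mc mp F x‖ + ε / 4 := by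
    refine abs_le_of_sq_le_sq' ?_ (by positivity) |>.2
    have h5 := (abs_lt.1 n2).1
    have h6 := norm_nonneg (mc mp F x)
    nlinarith
  have s5 : ‖mc mp F x‖ ≤ ‖u‖ * ‖st mp (cn G1 G2 bp A0) x‖ := by
    have h5 : ∀ y, F y ≠ 0 → y ∈ cn G1 G2 bp A0 := by
      intro y hy
      rw [hF, H859.CL.cfc] at hy
      refine ⟨?_, ?_⟩
      · by_contra h6
        rw [ind_neg (P := fun g => G2 g ≤ G1 g) h6, Complex.ofReal_zero, zero_mul] at hy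
        exact hy rfl
      · refine hu (subset_tsupport _ ?_)
        intro h6
        rw [h6, mul_zero] at hy
        exact hy rfl
    rw [mc_cut h hFn h5]
    exact mc_nrm h (norm_nonneg _) hFn _
  have s6 : ‖st mp (cn G1 G2 bp A0) x‖ ≤ ‖st mp (Dm R T A0) x‖ +
      ε / (4 * (‖u‖ + 1)) := by
    refine (hprj.mono (hT' A0) x).trans ?_
    refine (hprj.norm_union_le _ _ x).trans ?_
    exact add_le_add_right n1 _
  have s7 : ‖u‖ * (ε / (4 * (‖u‖ + 1))) ≤ ε / 4 := by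
    rw [mul_div_assoc', div_le_div_iff₀ (by positivity) (by norm_num)]
    have := norm_nonneg u
    nlinarith
  have s8 := mul_le_mul_of_nonneg_left s6 (norm_nonneg u)
  rw [mul_add] at s8
  rw [s1]
  linarith

/-- **The limits along all conjugates.** -/
theorem limG_of (hdec : Dec b x₀) (h : Fn mp) (hcut : DomCutG Dm G1 G2 bp)
    {E : C(Y, ℂ) →⋆ₐ[ℂ] (K →L[ℂ] K)}
    (hE : EOutG b π lam W mp G1 G2 bp E) (hπ : ∀ g, adjoint (π g) = π g⁻¹)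
    (hcomm : ∀ g γ, π g * lam γ = lam γ * π g) (hWP : ∀ x ∈ W, ∀ g, π g * x * π g⁻¹ ∈ W) :
    LimG b x₀ π lam W (st mp) Dm (fun g => cjY π hπ g E) where
  cm := fun g f x hx => by
    have h1 : π g⁻¹ * x * π g ∈ W := by
      have := hWP x hx g⁻¹
      rwa [inv_inv] at this
    have h2 := hE.cm f _ h1
    have h3 : π g * π g⁻¹ = 1 := by rw [← map_mul, mul_inv_cancel, map_one]
    have h4 : π g⁻¹ * π g = 1 := by rw [← map_mul, inv_mul_cancel, map_one]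
    rw [cjY_apply]
    calc π g * E f * π g⁻¹ * x = π g * (E f * (π g⁻¹ * x * π g)) * π g⁻¹ := by
          have e : x = x * (π g * π g⁻¹) := by rw [h3, mul_one]
          conv_lhs => rw [e]
          simp only [mul_assoc]
      _ = π g * ((π g⁻¹ * x * π g) * E f) * π g⁻¹ := by rw [h2]
      _ = (π g * π g⁻¹) * x * (π g * E f * π g⁻¹) := by simp only [mul_assoc]
      _ = x * (π g * E f * π g⁻¹) := by rw [h3, one_mul]
  cov := fun γ g f f' hf => by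
    rw [cjY_apply, cjY_apply, ← hE.cov γ f f' hf]
    have h1 := hcomm g γ
    have h2 := hcomm g⁻¹ γ⁻¹
    calc lam γ * (π g * E f * π g⁻¹) * lam γ⁻¹ = (lam γ * π g) * E f * (π g⁻¹ * lam γ⁻¹) := by
          simp only [mul_assoc]
      _ = (π g * lam γ) * E f * (lam γ⁻¹ * π g⁻¹) := by rw [← h1, h2]
      _ = _ := by simp only [mul_assoc]
  conj := fun v g f => by
    rw [cjY_apply, cjY_apply, mul_inv_rev, map_mul, map_mul]
    simp only [mul_assoc]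
  par := fun g hg => by
    refine StarAlgHom.ext fun f => ?_
    rw [cjY_apply, cjY_apply]
    obtain ⟨v, n, hv, hn, rfl⟩ := hdec g hg
    have h1 := hE.cen v hv f
    have h2 := hE.con n hn f
    have h3 : π (v * n) * E f = E f * π (v * n) := by
      rw [map_mul, mul_assoc, h2, ← mul_assoc, h1, mul_assoc]
    rw [h3, mul_assoc, ← map_mul, mul_inv_cancel, inv_one, map_one, one_mul]
  dom := fun g u A0 _ hu ζ ε hε => domG_of h hcut hE hπ g u A0 hu ζ hε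

/-- From the output of the engine at `b⁻¹`. -/
theorem eoutG_of (hG : H859.CN.GeoF Br G1 G2 bp) {E : C(Y, ℂ) →⋆ₐ[ℂ] (K →L[ℂ] K)}
    (hE : EngOut mp (fun g => π g) (fun γ => lam γ) W b⁻¹ G1 G2 bp E)
    (hlu2 : LU2 mp (fun g => π g) G1 G2 (pw b⁻¹))
    (hngl : ∀ (v : D) (ξ : K) (ε : ℝ), 0 < ε → ∃ r, ∀ T, ∀ᶠ a in pw b⁻¹,
      ‖st mp (FF G1 G2 T ∪ BB G1 G2 r) (π v (π a ξ))‖ ≤ ε) :
    EOutG b π lam W mp G1 G2 bp E := by
  have hpw : ∀ N : ℕ, (b⁻¹ : D) ^ N = (b ^ N)⁻¹ := fun N => inv_pow _ _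
  refine ⟨fun f ξ => ?_, fun f a ha => ?_, fun γ f f' hf => hE.cov γ f f' hf, fun n hn f => ?_,
    fun v hv f => ?_, fun f v ξ => ?_, fun v ξ ε hε => ?_⟩
  · have h1 := tendsto_pw.1 (hE.lim f ξ)
    simpa only [hpw] using h1
  · exact (hE.cm a ha f).symm
  · refine hE.contr n ?_ f
    refine hn.congr fun N => ?_
    rw [hpw, inv_inv]
  · refine hE.cent v ?_ f
    have h1 : Commute v b := hv
    exact h1.inv_right.eq.symm
  · have hb : ∀ g, ‖H859.CL.cfc G1 G2 bp f g‖ ≤ ‖f‖ := fun g => cfcY_norm f g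
    have h1 := tendsto_pw.1 (hlu2 (H859.CL.cfc G1 G2 bp f) ‖f‖ hb
      (fun u => H859.CN.neg_right hG u f) v ξ ξ)
    simpa only [hpw] using h1
  · obtain ⟨r, hr⟩ := hngl v ξ ε hε
    refine ⟨r, fun T => ?_⟩
    have h1 := hr T
    rw [pw, Filter.eventually_map] at h1
    filter_upwards [h1] with N hN
    rwa [hpw] at hN

/-- No regular and no finite mass on `R v (R w ξ)` (copy of `H142.ngl_shift` for `CN.Sys`). -/
theorem nglG {m : Set Γ → (K →L[ℂ] K)} {R : D → (K →L[ℂ] K)} {A : Subgroup D} {l : Filter D}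
    (h : H859.CN.Sys m R Bd ms A Br G1 G2) (hfin : ∀ r, (FF G1 G2 r).Finite)
    (he : Esc m R Bd A l) (hsub : Bf ⊆ Bd)
    (hdense : Dense ((Submodule.span ℂ Bf : Submodule ℂ K) : Set K))
    (hmap : ∀ v, ∀ ζ ∈ Bf, R v ζ ∈ Bf) (hloc : ∀ v, LocAt m (R v) Bf)
    (hgap : ∀ u : Γ, ∃ C, ∀ x, |G1 (x * u) - G1 x| ≤ C ∧ |G2 (x * u) - G2 x| ≤ C)
    (v : D) (ξ : K) {ε : ℝ} (hε : 0 < ε) :
    ∃ r, ∀ T, ∀ᶠ w in l, ‖m (FF G1 G2 T ∪ BB G1 G2 r) (R v (R w ξ))‖ ≤ ε := by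
  -- vectors in the span
  obtain ⟨N, hN⟩ : ∃ N : Submodule ℂ K, ∀ ξ, ξ ∈ N ↔ ∀ ε : ℝ, 0 < ε →
      ∃ r, ∀ T, ∀ᶠ w in l, ‖m (FF G1 G2 T ∪ BB G1 G2 r) (R v (R w ξ))‖ ≤ ε := by
    refine ⟨⟨⟨⟨{ξ | ∀ ε : ℝ, 0 < ε → ∃ r, ∀ T, ∀ᶠ w in l,
      ‖m (FF G1 G2 T ∪ BB G1 G2 r) (R v (R w ξ))‖ ≤ ε}, ?_⟩, ?_⟩, ?_⟩, fun ξ => Iff.rfl⟩
    · intro ξ η hξ hη ε hε
      obtain ⟨r1, hr1⟩ := hξ (ε / 2) (by positivity)
      obtain ⟨r2, hr2⟩ := hη (ε / 2) (by positivity)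
      refine ⟨max r1 r2, fun T => ?_⟩
      filter_upwards [hr1 T, hr2 T] with w h1 h2
      have h3 := (h.prj.mono (Set.union_subset_union_right (FF G1 G2 T)
        (BB_mono (G1 := G1) (G2 := G2) (le_max_left r1 r2))) (R v (R w ξ))).trans h1
      have h4 := (h.prj.mono (Set.union_subset_union_right (FF G1 G2 T)
        (BB_mono (G1 := G1) (G2 := G2) (le_max_right r1 r2))) (R v (R w η))).trans h2
      rw [map_add, map_add, map_add]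
      exact (norm_add_le _ _).trans (by linarith)
    · intro ε hε
      refine ⟨0, fun T => Eventually.of_forall fun w => ?_⟩
      rw [map_zero, map_zero, map_zero, norm_zero]
      exact hε.le
    · intro c ξ hξ ε hε
      obtain ⟨r1, hr1⟩ := hξ (ε / (‖c‖ + 1)) (by positivity)
      refine ⟨r1, fun T => ?_⟩
      filter_upwards [hr1 T] with w h1
      rw [map_smul, map_smul, map_smul, norm_smul]
      rw [le_div_iff₀ (by positivity)] at h1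
      have := norm_nonneg (m (FF G1 G2 T ∪ BB G1 G2 r1) (R v (R w ξ)))
      nlinarith
  have hbd : ∀ ξ ∈ Bf, ξ ∈ N := by
    intro ξ hξ
    rw [hN]
    intro ε hε
    obtain ⟨S, X, hX, hS⟩ := hloc v (ε / 2) (by positivity)
    choose C hC using hgap
    obtain ⟨Cm, hCm⟩ : ∃ Cm : ℝ, ∀ u ∈ S, C u ≤ Cm := by
      obtain ⟨b, hb⟩ := (S.image C).bddAbove
      exact ⟨b, fun u hu => hb (Finset.mem_coe.mpr (Finset.mem_image_of_mem C hu))⟩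
    obtain ⟨M, hM⟩ : ∃ M : ℝ, M = ∑ u ∈ S, ‖X u‖ + 1 := ⟨_, rfl⟩
    have hM0 : 0 < M := by
      rw [hM]
      have : 0 ≤ ∑ u ∈ S, ‖X u‖ := Finset.sum_nonneg fun u _ => norm_nonneg _
      linarith
    obtain ⟨r, hr⟩ := h.nrv ξ (hsub hξ) (ε / (4 * M)) (by positivity)
    refine ⟨r + Cm, fun T => ?_⟩
    have h1 := h.prj.tendsto_finite (f := fun w => R w ξ) (l := l)
      (fun g => H859.CN.esc2 h he g ξ) (hfin (T + Cm))
    filter_upwards [he.mem, (Metric.tendsto_nhds.mp h1) (ε / (4 * M)) (by positivity)] with w hw h2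
    rw [dist_zero_right, norm_norm] at h2
    have h3 := hr w hw
    obtain ⟨ζ, hζ⟩ : ∃ ζ, ζ = R w ξ := ⟨_, rfl⟩
    have hζB : ζ ∈ Bf := by rw [hζ]; exact hmap _ _ hξ
    rw [← hζ] at h2 h3 ⊢
    have h4 : ‖m (FF G1 G2 (T + Cm) ∪ BB G1 G2 r) ζ‖ ≤ ε / (2 * M) := by
      have h5 := h.prj.norm_union_le (FF G1 G2 (T + Cm)) (BB G1 G2 r) ζ
      have e1 : ε / (2 * M) = ε / (4 * M) + ε / (4 * M) := by field_simp; ring
      rw [e1]
      exact h5.trans (add_le_add h2.le h3)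
    have c1 : ‖m (FF G1 G2 T ∪ BB G1 G2 (r + Cm)) (R v ζ) -
        m (FF G1 G2 T ∪ BB G1 G2 (r + Cm)) (∑ u ∈ S, X u ζ)‖ ≤ ε / 2 := by
      rw [← map_sub]
      exact (h.prj.norm_le _ _).trans (hS ζ hζB)
    have c2 : ‖m (FF G1 G2 T ∪ BB G1 G2 (r + Cm)) (∑ u ∈ S, X u ζ)‖ ≤ ε / 2 := by
      rw [map_sum]
      have e : ∀ u ∈ S, ‖m (FF G1 G2 T ∪ BB G1 G2 (r + Cm)) (X u ζ)‖ ≤
          ‖X u‖ * (ε / (2 * M)) := by
        intro u hu
        have e1 : m (FF G1 G2 T ∪ BB G1 G2 (r + Cm)) (X u ζ) =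
            X u (m {g | g * u ∈ FF G1 G2 T ∪ BB G1 G2 (r + Cm)} ζ) :=
          congrArg (fun T : K →L[ℂ] K => T ζ) (hX u hu _)
        rw [e1]
        refine ((X u).le_opNorm _).trans (mul_le_mul_of_nonneg_left ?_ (norm_nonneg _))
        refine le_trans (h.prj.mono ?_ ζ) h4
        intro g hg
        obtain ⟨k1, k2⟩ := hC u g
        have k3 := hCm u hu
        obtain ⟨a1, a2⟩ := abs_le.mp k1
        obtain ⟨b1, b2⟩ := abs_le.mp k2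
        rcases hg with ⟨p1, p2⟩ | ⟨p1, p2⟩
        · left
          exact ⟨by linarith, by linarith⟩
        · right
          exact ⟨by linarith, by linarith⟩
      refine (norm_sum_le_of_le S e).trans ?_
      rw [← Finset.sum_mul]
      calc (∑ u ∈ S, ‖X u‖) * (ε / (2 * M)) ≤ M * (ε / (2 * M)) := by
            refine mul_le_mul_of_nonneg_right ?_ (by positivity)
            rw [hM]; linarith
        _ = ε / 2 := by field_simp
    have e0 : m (FF G1 G2 T ∪ BB G1 G2 (r + Cm)) (R v ζ) =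
        (m (FF G1 G2 T ∪ BB G1 G2 (r + Cm)) (R v ζ) -
        m (FF G1 G2 T ∪ BB G1 G2 (r + Cm)) (∑ u ∈ S, X u ζ)) +
        m (FF G1 G2 T ∪ BB G1 G2 (r + Cm)) (∑ u ∈ S, X u ζ) := by abel
    rw [e0]
    exact (norm_add_le _ _).trans (by linarith)
  have hspan : Submodule.span ℂ Bf ≤ N := Submodule.span_le.mpr hbd
  obtain ⟨η, hη, hd⟩ := Metric.mem_closure_iff.mp (hdense ξ) (ε / 2) (by positivity)
  obtain ⟨r, hr⟩ := (hN η).1 (hspan hη) (ε / 2) (by positivity)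
  refine ⟨r, fun T => ?_⟩
  filter_upwards [hr T] with w h1
  have h2 : m (FF G1 G2 T ∪ BB G1 G2 r) (R v (R w ξ)) =
      m (FF G1 G2 T ∪ BB G1 G2 r) (R v (R w (ξ - η))) +
      m (FF G1 G2 T ∪ BB G1 G2 r) (R v (R w η)) := by
    rw [← map_add, ← map_add, ← map_add, sub_add_cancel]
  rw [h2]
  rw [dist_eq_norm] at hd
  have h3 : ‖m (FF G1 G2 T ∪ BB G1 G2 r) (R v (R w (ξ - η)))‖ ≤ ε / 2 :=
    ((h.prj.norm_le _ _).trans ((h.rep.norm_le _ _).trans (h.rep.norm_le _ _))).trans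
      hd.le
  exact (norm_add_le _ _).trans (by linarith)

/-- **Engine to the limits along all conjugates, general engine.** -/
theorem limG_eng (hdec : Dec b x₀)
    (h : H859.CN.SysF mp (fun g => π g) Bd ms (Subgroup.zpowers b⁻¹) Br G1 G2)
    (hL : Leg mp (fun g => π g) (fun γ => lam γ) W)
    (hG : H859.CN.GeoF Br G1 G2 bp)
    (hS : Slow mp (fun g => π g) Bd)
    (he : Esc (st mp) (fun g => π g) Bd (Subgroup.zpowers b⁻¹) (pw b⁻¹))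
    (hlu : LU1 mp (fun g => π g) G1 G2 (pw b⁻¹))
    (hlu2 : LU2 mp (fun g => π g) G1 G2 (pw b⁻¹))
    (hfu : Full (st mp) (fun g => π g) G1 G2 (pw b⁻¹))
    (hsub : Bf ⊆ Bd) (hdense : Dense ((Submodule.span ℂ Bf : Submodule ℂ K) : Set K))
    (hmap : ∀ v, ∀ ζ ∈ Bf, π v ζ ∈ Bf) (hloc : ∀ v, LocAt (st mp) (π v) Bf)
    (hcut : DomCutG Dm G1 G2 bp) (hπ : ∀ g, adjoint (π g) = π g⁻¹) :
    ∃ E : C(Y, ℂ) →⋆ₐ[ℂ] (K →L[ℂ] K),
      LimG b x₀ π lam W (st mp) Dm (fun g => cjY π hπ g E) := by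
  obtain ⟨E, hE⟩ := H859.CN.engine h hL hG hS (fun g ξ hξ => tendsto_pw.1 (he.esc g ξ hξ)) hlu hfu
  refine ⟨E, limG_of hdec h.fn hcut (eoutG_of hG hE hlu2 fun v ξ ε hε => ?_) hπ hL.comm
    (fun x hx g => hL.WP x hx g)⟩
  refine nglG h.sys hG.fin he hsub hdense hmap hloc (fun u => ?_) v ξ hε
  obtain ⟨C, hC⟩ := hG.gap 1 u
  exact ⟨C, fun x => by have := hC x; rwa [one_mul] at this⟩

/-- **Engine to the family of boundary calculi.** -/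
theorem famG_eng (hdec : Dec b x₀) (htr : ∀ a : X, ∃ g : D, g • x₀ = a)
    (h : H859.CN.SysF mp (fun g => π g) Bd ms (Subgroup.zpowers b⁻¹) Br G1 G2)
    (hL : Leg mp (fun g => π g) (fun γ => lam γ) W)
    (hG : H859.CN.GeoF Br G1 G2 bp)
    (hS : Slow mp (fun g => π g) Bd)
    (he : Esc (st mp) (fun g => π g) Bd (Subgroup.zpowers b⁻¹) (pw b⁻¹))
    (hlu : LU1 mp (fun g => π g) G1 G2 (pw b⁻¹))
    (hlu2 : LU2 mp (fun g => π g) G1 G2 (pw b⁻¹))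
    (hfu : Full (st mp) (fun g => π g) G1 G2 (pw b⁻¹))
    (hsub : Bf ⊆ Bd) (hdense : Dense ((Submodule.span ℂ Bf : Submodule ℂ K) : Set K))
    (hmap : ∀ v, ∀ ζ ∈ Bf, π v ζ ∈ Bf) (hloc : ∀ v, LocAt (st mp) (π v) Bf)
    (hcut : DomCutG Dm G1 G2 bp) (hπ : ∀ g, adjoint (π g) = π g⁻¹) :
    ∃ E : X → (C(Y, ℂ) →⋆ₐ[ℂ] (K →L[ℂ] K)), FamG b x₀ π lam W (st mp) Dm E := by
  obtain ⟨E, hE⟩ := limG_eng (x₀ := x₀) hdec h hL hG hS he hlu hlu2 hfu hsub hdense hmap hloc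
    hcut hπ
  exact ⟨_, hE.famG htr⟩

end asm

end Vale.Agent.P092.H368.SN
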