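import Vale.Agent.P092.H790.CTM

/-!
P092 (helper368), TEAM N, block [N-CNT]: the counting principle for an arbitrary group `G`, an
element `b` and a family `u` of elements expanded by `b` (generic form of `H790/CT` and of
`H596/CTS`; no geometry, no field).
-/

set_option linter.all false

open scoped InnerProductSpace ENNReal
open Filter Topology ContinuousLinearMap MeasureTheory TopologicalSpace

namespace Vale.Agent.P092.H368.SN

open Vale.Agent.P092.SD (Ms UC)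
open Vale.Agent.P092.RC (Cm TRN Pic)
open Vale.Agent.P092.H790.CT (mulA oneA ms_inf_app ms_compl_app ms_idem ms_contr ms_norm ms_mono
  ms_split ms_lam PicL pi_norm lam_norm tails all_vec trn_mask)

/-- (ORB), generic: the orbit of `Ω` along the family `u` expanded by `b` is spread out, with rate
`ρ ^ N`. -/
def ORBg {G P Γ K : Type} [Group G] [MeasurableSpace P] [Group Γ] [NormedAddCommGroup K]
    [InnerProductSpace ℂ K] [CompleteSpace K] (μ : Measure P) (b : G) (u : P → G) (ρ : ℝ)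
    (π : G →* (K →L[ℂ] K)) (lam : Γ →* (K →L[ℂ] K)) (W : Set (K →L[ℂ] K)) (Ω : K) : Prop :=
  ∀ g : G, ∀ δ > 0, ∃ C : ℝ, ∀ N : ℕ, ∀ T, Cm W T → ‖T‖ ≤ 1 →
    ∫⁻ s, ‖T (π (g * b ^ N * u s * g⁻¹)⁻¹ Ω)‖ₑ ^ 2 ∂μ ≤
      ENNReal.ofReal (C * ρ ^ N) * TRN lam Ω T + ENNReal.ofReal δ

/-- (SIZE), generic, with the logarithmic size `L`: the size of `π(b^N)⁻¹ Ω` grows
subexponentially. -/
def SIZEg {G Γ K : Type} [Group G] [Group Γ] [NormedAddCommGroup K] [InnerProductSpace ℂ K]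
    (b : G) (π : G →* (K →L[ℂ] K)) (Ω : K) (m : Set Γ → (K →L[ℂ] K)) (L : Γ → ℝ) : Prop :=
  ∀ g : G, ∀ η > 0, ∀ ε > 0, ∀ᶠ N : ℕ in atTop,
    ‖m {γ | Real.exp (η * N) < L γ} (π (g * b ^ N * g⁻¹)⁻¹ Ω)‖ ≤ ε

section alg

variable {G K : Type} [Group G] [NormedAddCommGroup K] [InnerProductSpace ℂ K]
  {π : G →* (K →L[ℂ] K)}

theorem conj_pow' (g b : G) (N : ℕ) : g * b ^ N * g⁻¹ = (g * b * g⁻¹) ^ N := by
  rw [conj_pow]

theorem comm_inv {B : K →L[ℂ] K} {g : G} (h : Commute B (π g)) : Commute B (π g⁻¹) := by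
  have h1 : π g * π g⁻¹ = 1 := by rw [← map_mul, mul_inv_cancel, map_one]
  have h2 : π g⁻¹ * π g = 1 := by rw [← map_mul, inv_mul_cancel, map_one]
  change B * π g⁻¹ = π g⁻¹ * B
  calc B * π g⁻¹ = (π g⁻¹ * π g) * (B * π g⁻¹) := by rw [h2, one_mul]
    _ = π g⁻¹ * (π g * B) * π g⁻¹ := by simp only [mul_assoc]
    _ = π g⁻¹ * (B * π g) * π g⁻¹ := by rw [h.eq]
    _ = π g⁻¹ * B * (π g * π g⁻¹) := by simp only [mul_assoc]
    _ = π g⁻¹ * B := by rw [h1, mul_one]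

theorem comm_pow {B : K →L[ℂ] K} {g : G} (h : Commute B (π g)) (N : ℕ) :
    Commute B (π (g ^ N)) := by
  rw [map_pow]
  exact h.pow_right N

theorem norm_scale (B : K →L[ℂ] K) : ‖((‖B‖ + 1 : ℝ) : ℂ)⁻¹ • B‖ ≤ 1 := by
  have h1 : (0 : ℝ) < ‖B‖ + 1 := by positivity
  rw [norm_smul, norm_inv, Complex.norm_real, Real.norm_of_nonneg h1.le]
  calc (‖B‖ + 1)⁻¹ * ‖B‖ ≤ (‖B‖ + 1)⁻¹ * (‖B‖ + 1) := by
        gcongr
        linarith
    _ = 1 := inv_mul_cancel₀ h1.ne'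

end alg

section main

variable {G P Γ K : Type} [Group G] [TopologicalSpace G] [IsTopologicalGroup G]
  [TopologicalSpace P] [MeasurableSpace P] [OpensMeasurableSpace P]
  [Group Γ] [NormedAddCommGroup K] [InnerProductSpace ℂ K] [CompleteSpace K]
  {μ : Measure P} {b : G} {u : P → G} {ρ : ℝ}
  {π : G →* (K →L[ℂ] K)} {lam : Γ →* (K →L[ℂ] K)} {W : Set (K →L[ℂ] K)} {Ω : K}
  {m : Set Γ → (K →L[ℂ] K)} {L : Γ → ℝ}

/-- **Counting at the vector `Ω`**, pointwise form: `δ` depends only on `g` and `ε`. -/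
theorem count_pt [IsFiniteMeasure μ] (hP : PicL π lam W Ω) (hM : Ms lam W Ω m)
    (hUC : UC π W Ω m) (hORB : ORBg μ b u ρ π lam W Ω) {p₀ : P} (hu : ContinuousAt u p₀)
    (hu0 : u p₀ = 1) (hμ : ∀ U ∈ 𝓝 p₀, μ U ≠ 0) (hρ : 0 ≤ ρ) (g : G) {ε : ℝ} (hε : 0 < ε) :
    ∃ δ > 0, ∀ B : K →L[ℂ] K, Cm W B → ‖B‖ ≤ 1 → Commute B (π (g * b * g⁻¹)) →
      (∀ s, Commute B (π (g * u s * g⁻¹))) → ∀ (N : ℕ) (D : Set Γ),
      ENNReal.ofReal (ρ ^ N) * TRN lam Ω (m D * B) ≤ ENNReal.ofReal δ →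
        ‖m D (B (π (g * b ^ N * g⁻¹)⁻¹ Ω))‖ ≤ ε := by
  -- small group elements
  have hcont : ContinuousAt (fun s : P => (g * u s * g⁻¹)⁻¹) p₀ := by
    have h1 : ContinuousAt (fun s : P => g * u s * g⁻¹) p₀ :=
      (continuousAt_const.mul hu).mul continuousAt_const
    exact h1.inv
  have h0 : Tendsto (fun s : P => (g * u s * g⁻¹)⁻¹) (𝓝 p₀) (𝓝 1) := by
    have h1 := hcont.tendsto
    simpa [hu0] using h1
  have h1 := h0.eventually (hUC (ε / 2) (half_pos hε))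
  obtain ⟨U, hUs, hUo, hUp⟩ := mem_nhds_iff.1 h1
  have hμ0 : μ U ≠ 0 := hμ U (hUo.mem_nhds hUp)
  have hμt : μ U ≠ ∞ := measure_ne_top μ U
  obtain ⟨v, hv⟩ : ∃ v : ℝ, v = (μ U).toReal := ⟨_, rfl⟩
  have hv0 : 0 < v := by rw [hv]; exact ENNReal.toReal_pos hμ0 hμt
  have hvm : μ U = ENNReal.ofReal v := by
    rw [hv, ENNReal.ofReal_toReal hμt]
  obtain ⟨q', hq'⟩ : ∃ q' : ℝ, q' = v * (ε / 2) ^ 2 / 4 := ⟨_, rfl⟩
  have hq0 : 0 < q' := by rw [hq']; positivity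
  obtain ⟨C, hC⟩ := hORB g q' hq0
  have hC1 : (0 : ℝ) < |C| + 1 := by positivity
  refine ⟨q' / (|C| + 1), div_pos hq0 hC1, fun B hB hB1 hb hn N D hN => ?_⟩
  obtain ⟨h, hh⟩ : ∃ h : G, h = (g * b ^ N * g⁻¹)⁻¹ := ⟨_, rfl⟩
  rw [← hh]
  by_contra hcon
  rw [not_le] at hcon
  have hTcm : Cm W (m D * B) := fun w' hw' => by
    rw [mul_assoc, hB w' hw', ← mul_assoc, hM.cm _ w' hw', mul_assoc]
  have hT1 : ‖m D * B‖ ≤ 1 := by
    refine (norm_mul_le _ _).trans ?_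
    calc ‖m D‖ * ‖B‖ ≤ 1 * 1 :=
          mul_le_mul (ms_norm hM _) hB1 (norm_nonneg _) zero_le_one
      _ = 1 := one_mul 1
  have hup := hC N (m D * B) hTcm hT1
  -- lower bound
  have hlow : ∀ s ∈ U, ENNReal.ofReal ((ε / 2) ^ 2) ≤
      ‖(m D * B) (π (g * b ^ N * u s * g⁻¹)⁻¹ Ω)‖ₑ ^ 2 := by
    intro s hs
    obtain ⟨g', hg'⟩ : ∃ g' : G, g' = (g * u s * g⁻¹)⁻¹ := ⟨_, rfl⟩
    have e1 : (g * b ^ N * u s * g⁻¹)⁻¹ = g' * h := by
      rw [hg', hh]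
      group
    have hBg : Commute B (π g') := by
      rw [hg']
      exact comm_inv (hn s)
    have e2 : (m D * B) (π (g * b ^ N * u s * g⁻¹)⁻¹ Ω) =
        m D (π g' (B (π h Ω))) := by
      rw [e1, map_mul, mulA, mulA]
      congr 1
      exact congrArg (fun A : K →L[ℂ] K => A (π h Ω)) hBg.eq
    have h2 := hUs hs D B hB hB1 h
    rw [← hg'] at h2
    have h3 : (m D * π g' - π g' * m D) (B (π h Ω)) =
        m D (π g' (B (π h Ω))) - π g' (m D (B (π h Ω))) := rfl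
    rw [h3] at h2
    have h4 : ‖π g' (m D (B (π h Ω)))‖ = ‖m D (B (π h Ω))‖ := pi_norm hP _ _
    have h5 := norm_sub_norm_le (π g' (m D (B (π h Ω)))) (m D (π g' (B (π h Ω))))
    rw [norm_sub_rev, h4] at h5
    have h6 : ε / 2 ≤ ‖m D (π g' (B (π h Ω)))‖ := by linarith
    rw [e2, ← ofReal_norm, ← ENNReal.ofReal_pow (norm_nonneg _)]
    exact ENNReal.ofReal_le_ofReal (pow_le_pow_left₀ (by positivity) h6 2)
  have hlow2 : ENNReal.ofReal ((ε / 2) ^ 2) * ENNReal.ofReal v ≤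
      ∫⁻ s, ‖(m D * B) (π (g * b ^ N * u s * g⁻¹)⁻¹ Ω)‖ₑ ^ 2 ∂μ := by
    rw [← hvm, ← setLIntegral_const]
    refine (setLIntegral_mono' hUo.measurableSet hlow).trans ?_
    exact setLIntegral_le_lintegral U _
  have hup2 : ENNReal.ofReal (C * ρ ^ N) * TRN lam Ω (m D * B) ≤
      ENNReal.ofReal q' := by
    have e1 : ENNReal.ofReal (C * ρ ^ N) ≤
        ENNReal.ofReal |C| * ENNReal.ofReal (ρ ^ N) := by
      rw [← ENNReal.ofReal_mul (abs_nonneg C)]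
      refine ENNReal.ofReal_le_ofReal ?_
      have := pow_nonneg hρ N
      gcongr
      exact le_abs_self C
    calc ENNReal.ofReal (C * ρ ^ N) * TRN lam Ω (m D * B)
        ≤ ENNReal.ofReal |C| * ENNReal.ofReal (ρ ^ N) *
            TRN lam Ω (m D * B) := by gcongr
      _ = ENNReal.ofReal |C| * (ENNReal.ofReal (ρ ^ N) *
            TRN lam Ω (m D * B)) := mul_assoc _ _ _
      _ ≤ ENNReal.ofReal |C| * ENNReal.ofReal (q' / (|C| + 1)) := by gcongr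
      _ = ENNReal.ofReal (|C| * (q' / (|C| + 1))) := (ENNReal.ofReal_mul (abs_nonneg C)).symm
      _ ≤ ENNReal.ofReal q' := by
          refine ENNReal.ofReal_le_ofReal ?_
          calc |C| * (q' / (|C| + 1)) ≤ (|C| + 1) * (q' / (|C| + 1)) := by
                gcongr
                linarith
            _ = q' := by field_simp
  have hfin := hlow2.trans (hup.trans (add_le_add_left hup2 _))
  rw [← ENNReal.ofReal_mul (by positivity), ← ENNReal.ofReal_add hq0.le hq0.le] at hfin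
  have h9 := (ENNReal.ofReal_le_ofReal_iff (by positivity)).1 hfin
  rw [hq'] at h9
  nlinarith [mul_pos hv0 (pow_pos (half_pos hε) 2)]

omit [TopologicalSpace G] [IsTopologicalGroup G] in
/-- eventually `c + exp (η' N) ≤ exp (η N)` -/
theorem ev_exp {η η' : ℝ} (h : η' < η) (h0 : 0 < η') (c : ℝ) :
    ∀ᶠ N : ℕ in atTop, c + Real.exp (η' * N) ≤ Real.exp (η * N) := by
  have h1 : Tendsto (fun N : ℕ => (η - η') * (N : ℝ)) atTop atTop :=
    tendsto_natCast_atTop_atTop.const_mul_atTop (sub_pos.2 h)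
  have h2 := (Real.tendsto_exp_atTop.comp h1).eventually_ge_atTop (1 + |c|)
  filter_upwards [h2] with N hN
  have h3 : (1 : ℝ) ≤ Real.exp (η' * N) := Real.one_le_exp (by positivity)
  have h4 : Real.exp (η * N) = Real.exp ((η - η') * N) * Real.exp (η' * N) := by
    rw [← Real.exp_add]
    congr 1
    ring
  rw [h4]
  change 1 + |c| ≤ Real.exp ((η - η') * N) at hN
  have h5 := le_abs_self c
  have h6 := abs_nonneg c
  nlinarith

/-- sizes of all vectors -/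
theorem size_all (hP : PicL π lam W Ω) (hM : Ms lam W Ω m)
    (hL : ∀ γ, ∃ c : ℝ, ∀ y, L (γ * y) ≤ c + L y) (hS : SIZEg b π Ω m L) (g : G)
    (ζ : K) {η : ℝ} (hη : 0 < η) : ∀ ε > 0, ∀ᶠ N : ℕ in atTop,
      ‖m {γ | Real.exp (η * N) < L γ} (π (g * b ^ N * g⁻¹)⁻¹ ζ)‖ ≤ ε := by
  intro ε hε
  have key := tails (I := {x : ℝ // 0 < x ∧ x < η}) hP hM (l := atTop)
    (fun N => (g * b ^ N * g⁻¹)⁻¹)
    (fun (i : {x : ℝ // 0 < x ∧ x < η}) (N : ℕ) => {γ | Real.exp (i.1 * N) < L γ})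
    ⟨⟨η / 2, by positivity, by linarith⟩⟩ ?_ ?_ ?_ ζ ε hε
  · obtain ⟨i, hi⟩ := key
    filter_upwards [hi] with N hN
    refine (ms_mono hM ?_ _).trans hN
    intro γ hγ
    refine lt_of_le_of_lt ?_ (show Real.exp (η * N) < L γ from hγ)
    refine Real.exp_le_exp.2 ?_
    have := i.2.2
    gcongr
  · intro i i'
    refine ⟨⟨max i.1 i'.1, lt_max_of_lt_left i.2.1, max_lt i.2.2 i'.2.2⟩,
      Eventually.of_forall fun N => ⟨fun γ hγ => ?_, fun γ hγ => ?_⟩⟩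
    · refine lt_of_le_of_lt ?_ (show Real.exp (max i.1 i'.1 * N) < L γ from hγ)
      refine Real.exp_le_exp.2 ?_
      gcongr
      exact le_max_left _ _
    · refine lt_of_le_of_lt ?_ (show Real.exp (max i.1 i'.1 * N) < L γ from hγ)
      refine Real.exp_le_exp.2 ?_
      gcongr
      exact le_max_right _ _
  · intro γ i
    obtain ⟨c, hc⟩ := hL γ
    have hi1 := i.2.1
    have hi2 := i.2.2
    refine ⟨⟨(i.1 + η) / 2, by linarith, by linarith⟩, ?_⟩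
    filter_upwards [ev_exp (show i.1 < (i.1 + η) / 2 by linarith) hi1 c] with N hN
    intro y hy
    have hy' : Real.exp ((i.1 + η) / 2 * N) < L (γ * y) := hy
    have := hc y
    change Real.exp (i.1 * N) < L y
    linarith
  · intro ε hε
    exact ⟨⟨η / 2, by positivity, by linarith⟩, hS g (η / 2) (by positivity) ε hε⟩

/-- the counting sum at time `N` -/
noncomputable def csg {Γ K : Type} [Group Γ] [NormedAddCommGroup K] [InnerProductSpace ℂ K]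
    [CompleteSpace K] (ρ : ℝ) (lam : Γ →* (K →L[ℂ] K)) (Ω : K) (L : Γ → ℝ) (B : K →L[ℂ] K)
    (A : Set Γ) (η : ℝ) (N : ℕ) : ℝ≥0∞ :=
  ENNReal.ofReal (ρ ^ N) *
    ∑' γ : {γ : Γ | γ ∈ A ∧ L γ ≤ Real.exp (η * N)}, ‖adjoint B (lam γ Ω)‖ₑ ^ 2

/-- The counting principle at `Ω`, norm at most one. -/
theorem cnt_om1 [IsFiniteMeasure μ] (hP : PicL π lam W Ω) (hM : Ms lam W Ω m)
    (hUC : UC π W Ω m) (hORB : ORBg μ b u ρ π lam W Ω) {p₀ : P} (hu : ContinuousAt u p₀)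
    (hu0 : u p₀ = 1) (hμ : ∀ U ∈ 𝓝 p₀, μ U ≠ 0) (hρ : 0 ≤ ρ)
    (hL : ∀ γ, ∃ c : ℝ, ∀ y, L (γ * y) ≤ c + L y) (hS : SIZEg b π Ω m L)
    {g : G} {B : K →L[ℂ] K} (hB : Cm W B) (hB1 : ‖B‖ ≤ 1)
    (hb : Commute B (π (g * b * g⁻¹))) (hn : ∀ s, Commute B (π (g * u s * g⁻¹)))
    {A : Set Γ} {η : ℝ} (hη : 0 < η)
    (hc : Tendsto (fun N => csg ρ lam Ω L B A η N) atTop (𝓝 0)) :
    Tendsto (fun N : ℕ => m A (B (π (g * b ^ N * g⁻¹)⁻¹ Ω))) atTop (𝓝 0) := by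
  rw [NormedAddCommGroup.tendsto_nhds_zero]
  intro ε hε
  have hsz := size_all hP hM hL hS g (B Ω) hη (ε / 4) (by positivity)
  obtain ⟨δ, hδ, hcount⟩ := count_pt hP hM hUC hORB hu hu0 hμ hρ g (ε := ε / 4) (by positivity)
  have h1 := (ENNReal.tendsto_nhds_zero.1 hc) (ENNReal.ofReal δ) (ENNReal.ofReal_pos.2 hδ)
  filter_upwards [hsz, h1] with N h2 h3
  have h4 := hcount B hB hB1 hb hn N {γ : Γ | γ ∈ A ∧ L γ ≤ Real.exp (η * N)}
    (by rw [trn_mask hP hM hB]; exact h3)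
  have hBh : Commute B (π (g * b ^ N * g⁻¹)⁻¹) := by
    rw [conj_pow']
    exact comm_inv (comm_pow hb _)
  have eBh : π (g * b ^ N * g⁻¹)⁻¹ (B Ω) = B (π (g * b ^ N * g⁻¹)⁻¹ Ω) :=
    (congrArg (fun A : K →L[ℂ] K => A Ω) hBh.eq).symm
  rw [eBh] at h2
  rw [ms_split hM A {γ | L γ ≤ Real.exp (η * N)}]
  refine (norm_add_le _ _).trans_lt ?_
  have h5 : ‖m (A ∩ {γ | L γ ≤ Real.exp (η * N)}ᶜ)
      (B (π (g * b ^ N * g⁻¹)⁻¹ Ω))‖ ≤ ε / 4 := by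
    refine (ms_mono hM ?_ _).trans h2
    intro γ hγ
    exact not_le.1 (show ¬ L γ ≤ Real.exp (η * N) from hγ.2)
  have h6 : ‖m (A ∩ {γ | L γ ≤ Real.exp (η * N)})
      (B (π (g * b ^ N * g⁻¹)⁻¹ Ω))‖ ≤ ε / 4 := h4
  linarith

/-- The counting principle at `Ω`. -/
theorem cnt_om [IsFiniteMeasure μ] (hP : PicL π lam W Ω) (hM : Ms lam W Ω m)
    (hUC : UC π W Ω m) (hORB : ORBg μ b u ρ π lam W Ω) {p₀ : P} (hu : ContinuousAt u p₀)
    (hu0 : u p₀ = 1) (hμ : ∀ U ∈ 𝓝 p₀, μ U ≠ 0) (hρ : 0 ≤ ρ)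
    (hL : ∀ γ, ∃ c : ℝ, ∀ y, L (γ * y) ≤ c + L y) (hS : SIZEg b π Ω m L)
    {g : G} {B : K →L[ℂ] K} (hB : Cm W B)
    (hb : Commute B (π (g * b * g⁻¹))) (hn : ∀ s, Commute B (π (g * u s * g⁻¹)))
    {A : Set Γ} {η : ℝ} (hη : 0 < η)
    (hc : Tendsto (fun N => csg ρ lam Ω L B A η N) atTop (𝓝 0)) :
    Tendsto (fun N : ℕ => m A (B (π (g * b ^ N * g⁻¹)⁻¹ Ω))) atTop (𝓝 0) := by
  obtain ⟨z, hz⟩ : ∃ z : ℂ, z = ((‖B‖ + 1 : ℝ) : ℂ)⁻¹ := ⟨_, rfl⟩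
  have h1 : (0 : ℝ) < ‖B‖ + 1 := by positivity
  have hz0 : z ≠ 0 := by
    rw [hz]
    exact inv_ne_zero (by exact_mod_cast h1.ne')
  have hB' : Cm W (z • B) := fun w' hw' => by
    rw [smul_mul_assoc, hB w' hw', mul_smul_comm]
  have hc' : Tendsto (fun N => csg ρ lam Ω L (z • B) A η N) atTop (𝓝 0) := by
    have e1 : ∀ N, csg ρ lam Ω L (z • B) A η N = ‖z‖ₑ ^ 2 * csg ρ lam Ω L B A η N := by
      intro N
      unfold csg
      rw [mul_left_comm]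
      congr 1
      rw [← ENNReal.tsum_mul_left]
      refine tsum_congr fun γ => ?_
      have e2 : adjoint (z • B : K →L[ℂ] K) (lam γ Ω) =
          (starRingEnd ℂ z) • adjoint B (lam γ Ω) := by
        have e3 : adjoint (z • B : K →L[ℂ] K) = (starRingEnd ℂ z) • adjoint B := by
          exact map_smulₛₗ (adjoint : (K →L[ℂ] K) ≃ₗᵢ⋆[ℂ] (K →L[ℂ] K)) z B
        rw [e3]
        rfl
      rw [e2, enorm_smul, mul_pow]
      congr 2
      rw [← ofReal_norm_eq_enorm, ← ofReal_norm_eq_enorm, RCLike.norm_conj]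
    simp_rw [e1]
    have hzt : ‖z‖ₑ ^ 2 ≠ ∞ := ENNReal.pow_ne_top enorm_ne_top
    have h2 : Tendsto (fun N => ‖z‖ₑ ^ 2 * csg ρ lam Ω L B A η N) atTop (𝓝 (‖z‖ₑ ^ 2 * 0)) :=
      ENNReal.Tendsto.const_mul hc (Or.inr hzt)
    rwa [mul_zero] at h2
  have h3 := cnt_om1 hP hM hUC hORB hu hu0 hμ hρ hL hS hB' (by rw [hz]; exact norm_scale B)
    (hb.smul_left z) (fun s => (hn s).smul_left z) hη hc'
  have h4 := h3.const_smul z⁻¹
  rw [smul_zero] at h4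
  refine h4.congr fun N => ?_
  change z⁻¹ • m A ((z • B) _) = _
  have e5 : (z • B) (π (g * b ^ N * g⁻¹)⁻¹ Ω) =
      z • B (π (g * b ^ N * g⁻¹)⁻¹ Ω) := rfl
  rw [e5, map_smul, smul_smul, inv_mul_cancel₀ hz0, one_smul]

/-- **[N-CNT]: the counting principle.** -/
theorem cntg [IsFiniteMeasure μ] (hP : PicL π lam W Ω) (hM : Ms lam W Ω m)
    (hUC : UC π W Ω m) (hORB : ORBg μ b u ρ π lam W Ω) {p₀ : P} (hu : ContinuousAt u p₀)
    (hu0 : u p₀ = 1) (hμ : ∀ U ∈ 𝓝 p₀, μ U ≠ 0) (hρ : 0 ≤ ρ)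
    (hL : ∀ γ, ∃ c : ℝ, ∀ y, L (γ * y) ≤ c + L y) (hS : SIZEg b π Ω m L)
    {g : G} {B : K →L[ℂ] K} (hB : Cm W B)
    (hb : Commute B (π (g * b * g⁻¹))) (hn : ∀ s, Commute B (π (g * u s * g⁻¹)))
    {A : Set Γ} {η : ℝ} (hη : 0 < η)
    (hc : Tendsto (fun N => csg ρ lam Ω L B A η N) atTop (𝓝 0)) (ζ : K) :
    Tendsto (fun N : ℕ => m A (B (π (g * b ^ N * g⁻¹)⁻¹ ζ))) atTop (𝓝 0) := by
  refine all_vec hP hM (fun N => (g * b ^ N * g⁻¹)⁻¹) (T := fun _ => m A * B)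
    (fun _ w' hw' => by rw [mul_assoc, hB w' hw', ← mul_assoc, hM.cm _ w' hw', mul_assoc])
    (C := ‖m A * B‖) (fun _ => le_rfl) ?_ ζ
  intro γ
  -- the translated operator
  have hl1 : lam γ * lam γ⁻¹ = 1 := by rw [← map_mul, mul_inv_cancel, map_one]
  obtain ⟨B', hB'⟩ : ∃ B', B' = lam γ⁻¹ * B * lam γ := ⟨_, rfl⟩
  have hcm : Cm W B' := fun w' hw' => by
    rw [hB']
    calc lam γ⁻¹ * B * lam γ * w' = lam γ⁻¹ * B * (lam γ * w') := by simp only [mul_assoc]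
      _ = lam γ⁻¹ * B * (w' * lam γ) := by rw [hP.WL w' hw']
      _ = lam γ⁻¹ * (B * w') * lam γ := by simp only [mul_assoc]
      _ = lam γ⁻¹ * (w' * B) * lam γ := by rw [hB w' hw']
      _ = (lam γ⁻¹ * w') * (B * lam γ) := by simp only [mul_assoc]
      _ = (w' * lam γ⁻¹) * (B * lam γ) := by rw [hP.WL w' hw']
      _ = w' * (lam γ⁻¹ * B * lam γ) := by simp only [mul_assoc]
  have hcom : ∀ h : G, Commute B (π h) → Commute B' (π h) := by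
    intro h hh
    rw [hB']
    have h1 : Commute (lam γ⁻¹) (π h) := (hP.comm h γ⁻¹).symm
    have h2 : Commute (lam γ) (π h) := (hP.comm h γ).symm
    exact (h1.mul_left hh).mul_left h2
  obtain ⟨A', hA'⟩ : ∃ A' : Set Γ, A' = {y | γ * y ∈ A} := ⟨_, rfl⟩
  have hc' : Tendsto (fun N => csg ρ lam Ω L B' A' (η / 2) N) atTop (𝓝 0) := by
    obtain ⟨c, hcc⟩ := hL γ
    have hev := ev_exp (show η / 2 < η by linarith) (half_pos hη) c
    refine tendsto_of_tendsto_of_tendsto_of_le_of_le' tendsto_const_nhds hc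
      (Eventually.of_forall fun _ => zero_le) ?_
    filter_upwards [hev] with N hN
    unfold csg
    refine mul_le_mul_right ?_ _
    have e1 : ∀ y : Γ, ‖adjoint B' (lam y Ω)‖ₑ = ‖adjoint B (lam (γ * y) Ω)‖ₑ := by
      intro y
      have e2 : adjoint B' = lam γ⁻¹ * adjoint B * lam γ := by
        rw [hB', mul_def, mul_def, adjoint_comp, adjoint_comp, hP.adjL, hP.adjL, inv_inv]
        rfl
      rw [e2, mulA, mulA, ← mulA (lam γ), ← map_mul, ← ofReal_norm_eq_enorm,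
        ← ofReal_norm_eq_enorm, lam_norm hP]
    rw [tsum_congr fun y : {y : Γ | y ∈ A' ∧ L y ≤ Real.exp (η / 2 * N)} =>
      show ‖adjoint B' (lam y Ω)‖ₑ ^ 2 = ‖adjoint B (lam (γ * y) Ω)‖ₑ ^ 2 by rw [e1]]
    have hinj : Function.Injective (fun y : {y : Γ | y ∈ A' ∧ L y ≤ Real.exp (η / 2 * N)} =>
        (⟨γ * y.1, by
          obtain ⟨y, hy1, hy2⟩ := y
          rw [hA'] at hy1
          refine ⟨hy1, ?_⟩
          have h2 := hcc y
          change L (γ * y) ≤ Real.exp (η * N)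
          linarith⟩ : {γ : Γ | γ ∈ A ∧ L γ ≤ Real.exp (η * N)})) := by
      intro y y' hyy'
      have := congrArg Subtype.val hyy'
      exact Subtype.ext (mul_left_cancel this)
    exact ENNReal.tsum_comp_le_tsum_of_injective hinj
      (fun y : {γ : Γ | γ ∈ A ∧ L γ ≤ Real.exp (η * N)} => ‖adjoint B (lam y Ω)‖ₑ ^ 2)
  have h1 := cnt_om hP hM hUC hORB hu hu0 hμ hρ hL hS hcm (hcom _ hb) (fun s => hcom _ (hn s))
    (half_pos hη) hc'
  have h2 := ((lam γ).continuous.tendsto 0).comp h1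
  rw [map_zero] at h2
  refine h2.congr fun N => ?_
  change lam γ (m A' (B' (π (g * b ^ N * g⁻¹)⁻¹ Ω))) =
    (m A * B) (π (g * b ^ N * g⁻¹)⁻¹ (lam γ Ω))
  have e1 : π (g * b ^ N * g⁻¹)⁻¹ (lam γ Ω) =
      lam γ (π (g * b ^ N * g⁻¹)⁻¹ Ω) :=
    congrArg (fun A : K →L[ℂ] K => A Ω) (hP.comm _ γ)
  have e2 : B * lam γ = lam γ * B' := by
    rw [hB', ← mul_assoc, ← mul_assoc, hl1, one_mul]
  rw [e1, mulA, ← mulA B, e2, mulA, ms_lam hM, ← hA']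

/-- polynomially many elements give a vanishing counting sum -/
theorem csg_tendsto (hρ : 0 ≤ ρ) (hρ1 : ρ < 1) {B : K →L[ℂ] K} {A : Set Γ} {C : ℝ} {p : ℕ}
    (hA : ∀ J : ℝ, 0 ≤ J → ∀ S : Finset Γ, (∀ γ ∈ S, γ ∈ A ∧ L γ ≤ J) →
      ∑ γ ∈ S, ‖adjoint B (lam γ Ω)‖ ^ 2 ≤ C * (1 + J) ^ p) :
    ∃ η > 0, Tendsto (fun N => csg ρ lam Ω L B A η N) atTop (𝓝 0) := by
  -- choice of `η` with `exp (η p) * ρ' < 1`
  obtain ⟨ρ', hρ'0, hρ'1, hρρ'⟩ : ∃ ρ' : ℝ, 0 < ρ' ∧ ρ' < 1 ∧ ρ ≤ ρ' :=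
    ⟨(ρ + 1) / 2, by linarith, by linarith, by linarith⟩
  obtain ⟨η, hη, hηρ⟩ : ∃ η > 0, Real.exp η ^ p * ρ' < 1 := by
    have hc : Tendsto (fun η : ℝ => Real.exp η ^ p * ρ') (𝓝[>] 0) (𝓝 (Real.exp 0 ^ p * ρ')) := by
      have h1 : Continuous fun η : ℝ => Real.exp η ^ p * ρ' := by fun_prop
      exact (h1.tendsto 0).mono_left nhdsWithin_le_nhds
    rw [Real.exp_zero, one_pow, one_mul] at hc
    obtain ⟨η, h1, h2⟩ := ((hc.eventually_lt_const hρ'1).and self_mem_nhdsWithin).exists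
    exact ⟨η, h2, h1⟩
  refine ⟨η, hη, ?_⟩
  have hr0 : 0 ≤ Real.exp η ^ p * ρ' := by positivity
  have hbound : ∀ N : ℕ, csg ρ lam Ω L B A η N ≤
      ENNReal.ofReal (|C| * 2 ^ p * (Real.exp η ^ p * ρ') ^ N) := by
    intro N
    unfold csg
    have hsum : ∑' γ : {γ : Γ | γ ∈ A ∧ L γ ≤ Real.exp (η * N)}, ‖adjoint B (lam γ Ω)‖ₑ ^ 2 ≤
        ENNReal.ofReal (|C| * 2 ^ p * (Real.exp η ^ p) ^ N) := by
      rw [ENNReal.tsum_eq_iSup_sum]
      refine iSup_le fun S => ?_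
      have h1 := hA (Real.exp (η * N)) (Real.exp_pos _).le
        (S.map ⟨Subtype.val, Subtype.val_injective⟩) (by
          intro γ hγ
          rw [Finset.mem_map] at hγ
          obtain ⟨x, -, rfl⟩ := hγ
          exact x.2)
      rw [Finset.sum_map] at h1
      have e1 : ∑ x ∈ S, ‖adjoint B (lam x Ω)‖ₑ ^ 2 =
          ENNReal.ofReal (∑ x ∈ S, ‖adjoint B (lam x Ω)‖ ^ 2) := by
        rw [ENNReal.ofReal_sum_of_nonneg fun _ _ => by positivity]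
        refine Finset.sum_congr rfl fun x _ => ?_
        rw [← ofReal_norm_eq_enorm, ENNReal.ofReal_pow (norm_nonneg _)]
      rw [e1]
      refine ENNReal.ofReal_le_ofReal (h1.trans ?_)
      have h2 : (1 : ℝ) ≤ Real.exp (η * N) := Real.one_le_exp (by positivity)
      have h3 : (1 + Real.exp (η * N)) ^ p ≤ (2 * Real.exp (η * N)) ^ p :=
        pow_le_pow_left₀ (by positivity) (by linarith) p
      have h4 : (2 * Real.exp (η * N)) ^ p = 2 ^ p * (Real.exp η ^ p) ^ N := by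
        rw [mul_pow, ← Real.exp_nat_mul, ← Real.exp_nat_mul, ← Real.exp_nat_mul]
        congr 2
        ring
      calc C * (1 + Real.exp (η * N)) ^ p ≤ |C| * (1 + Real.exp (η * N)) ^ p := by
            gcongr
            exact le_abs_self C
        _ ≤ |C| * (2 ^ p * (Real.exp η ^ p) ^ N) := by
            rw [← h4]
            gcongr
        _ = _ := by ring
    calc ENNReal.ofReal (ρ ^ N) *
          ∑' γ : {γ : Γ | γ ∈ A ∧ L γ ≤ Real.exp (η * N)}, ‖adjoint B (lam γ Ω)‖ₑ ^ 2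
        ≤ ENNReal.ofReal (ρ' ^ N) * ENNReal.ofReal (|C| * 2 ^ p * (Real.exp η ^ p) ^ N) := by
          gcongr
      _ = _ := by
          rw [← ENNReal.ofReal_mul (by positivity)]
          congr 1
          rw [mul_pow]
          ring
  have hlim : Tendsto (fun N : ℕ => ENNReal.ofReal (|C| * 2 ^ p * (Real.exp η ^ p * ρ') ^ N))
      atTop (𝓝 0) := by
    have h1 := (tendsto_pow_atTop_nhds_zero_of_lt_one hr0 hηρ).const_mul (|C| * 2 ^ p)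
    rw [mul_zero] at h1
    have h2 := ENNReal.tendsto_ofReal h1
    rwa [ENNReal.ofReal_zero] at h2
  exact tendsto_of_tendsto_of_tendsto_of_le_of_le tendsto_const_nhds hlim
    (fun _ => zero_le) hbound

/-- **[N-CNT], final form**: `Q` is dominated by the masks `Dm R T` along `b`, few elements of
`Dm R T` carry `B`; then `Q * B = 0`. -/
theorem emzg [IsFiniteMeasure μ] (hP : PicL π lam W Ω) (hM : Ms lam W Ω m)
    (hUC : UC π W Ω m) (hORB : ORBg μ b u ρ π lam W Ω) {p₀ : P} (hu : ContinuousAt u p₀)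
    (hu0 : u p₀ = 1) (hμ : ∀ U ∈ 𝓝 p₀, μ U ≠ 0) (hρ : 0 ≤ ρ) (hρ1 : ρ < 1)
    (hL : ∀ γ, ∃ c : ℝ, ∀ y, L (γ * y) ≤ c + L y) (hS : SIZEg b π Ω m L)
    {g : G} {B : K →L[ℂ] K} (hB : Cm W B)
    (hb : Commute B (π (g * b * g⁻¹))) (hn : ∀ s, Commute B (π (g * u s * g⁻¹)))
    {Q : K →L[ℂ] K} {Dm : ℝ → ℝ → Set Γ} {c₀ : ℝ}
    (hdom : ∀ ζ : K, ∀ ε > 0, ∃ R : ℝ, ∀ T > 0, ∀ᶠ N : ℕ in atTop,
      ‖Q ζ‖ ≤ c₀ * ‖m (Dm R T) (π (g * b ^ N * g⁻¹)⁻¹ ζ)‖ + ε)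
    (hcount : ∀ R : ℝ, ∃ T > 0, ∃ C : ℝ, ∃ p : ℕ, ∀ J : ℝ, 0 ≤ J → ∀ S : Finset Γ,
      (∀ γ ∈ S, γ ∈ Dm R T ∧ L γ ≤ J) → ∑ γ ∈ S, ‖adjoint B (lam γ Ω)‖ ^ 2 ≤ C * (1 + J) ^ p) :
    Q * B = 0 := by
  refine ContinuousLinearMap.ext fun ζ => ?_
  rw [mulA]
  change Q (B ζ) = 0
  rw [← norm_le_zero_iff]
  refine le_of_forall_pos_le_add fun ε hε => ?_
  obtain ⟨R, hR⟩ := hdom (B ζ) (ε / 2) (half_pos hε)
  obtain ⟨T, hT, C, p, hC⟩ := hcount R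
  obtain ⟨η, hη, hη'⟩ := csg_tendsto (lam := lam) (Ω := Ω) hρ hρ1 hC
  have h1 := cntg hP hM hUC hORB hu hu0 hμ hρ hL hS hB hb hn hη hη' ζ
  have h2 := h1.norm
  rw [norm_zero] at h2
  have h3 := h2.const_mul c₀
  rw [mul_zero] at h3
  have h4 := h3.eventually_lt_const (half_pos hε)
  obtain ⟨N, hN1, hN2⟩ := ((hR T hT).and h4).exists
  have hBh : Commute B (π (g * b ^ N * g⁻¹)⁻¹) := by
    rw [conj_pow']
    exact comm_inv (comm_pow hb _)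
  have eBh : π (g * b ^ N * g⁻¹)⁻¹ (B ζ) = B (π (g * b ^ N * g⁻¹)⁻¹ ζ) :=
    (congrArg (fun A : K →L[ℂ] K => A ζ) hBh.eq).symm
  rw [eBh] at hN1
  linarith

end main

end Vale.Agent.P092.H368.SN
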