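import Vale.Agent.P092.RC.Defs

/-!
P092 (helper368), TEAM N, block [N-ENG]: from the limits along the conjugates `g b^N g⁻¹` to the
family `E a`, `a` in a homogeneous space `X` of the source group `D`. Abstract form of `H142/Fam`
(any group `D`, any wall element `b`, any target space `Y`): it serves for points and for
hyperplanes, for `SL_n`, `PSL_n` and for a factor of a product.
-/

set_option linter.all false

open scoped InnerProductSpace ENNReal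
open Filter Topology ContinuousLinearMap MeasureTheory TopologicalSpace

namespace Vale.Agent.P092.H368.SN

open Vale.Agent.P092.RC (Cm)

/-- The stabiliser of `x₀` is generated by the centraliser of `b` and the elements contracted by
`b⁻¹`. -/
def Dec {D X : Type} [Group D] [TopologicalSpace D] [MulAction D X] (b : D) (x₀ : X) : Prop :=
  ∀ g : D, g • x₀ = x₀ → ∃ v n : D, v * b = b * v ∧
    Tendsto (fun N : ℕ => (b ^ N)⁻¹ * n * b ^ N) atTop (𝓝 1) ∧ g = v * n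

/-- `Dec` for a quotient. -/
theorem Dec.map {D D' X : Type} [Group D] [TopologicalSpace D] [MulAction D X] [Group D']
    [TopologicalSpace D'] [MulAction D' X] {b : D} {x₀ : X} (h : Dec b x₀) (p : D →* D')
    (hp : Continuous p) (hs : Function.Surjective p) (ha : ∀ g (x : X), p g • x = g • x) :
    Dec (p b) x₀ := by
  intro g' hg'
  obtain ⟨g, rfl⟩ := hs g'
  rw [ha] at hg'
  obtain ⟨v, n, h1, h2, h3⟩ := h g hg'
  refine ⟨p v, p n, by rw [← map_mul, h1, map_mul], ?_, by rw [h3, map_mul]⟩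
  have h4 := (hp.tendsto 1).comp h2
  rw [map_one] at h4
  refine h4.congr fun N => ?_
  simp only [Function.comp_apply, map_mul, map_inv, map_pow]

/-- `Dec` for a factor of a product. -/
theorem Dec.prod {D H X : Type} [Group D] [TopologicalSpace D] [MulAction D X] [Group H]
    [TopologicalSpace H] [MulAction (D × H) X] {b : D} {x₀ : X} (h : Dec b x₀)
    (ha : ∀ (g : D × H) (x : X), g • x = g.1 • x) : Dec ((b, 1) : D × H) x₀ := by
  intro g hg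
  rw [ha] at hg
  obtain ⟨v, n, h1, h2, h3⟩ := h g.1 hg
  refine ⟨(v, g.2), (n, 1), ?_, ?_, ?_⟩
  · rw [Prod.mk_mul_mk, Prod.mk_mul_mk, h1, mul_one, one_mul]
  · have e : (fun N : ℕ => (((b, 1) : D × H) ^ N)⁻¹ * (n, 1) * ((b, 1) : D × H) ^ N) =
        fun N : ℕ => ((b ^ N)⁻¹ * n * b ^ N, (1 : H)) := by
      funext N
      ext <;> simp
    rw [e]
    exact h2.prodMk_nhds tendsto_const_nhds
  · rw [Prod.mk_mul_mk, mul_one, ← h3]

section fam

variable {D X Γ K Y : Type} [Group D] [MulAction D X] [Group Γ] [TopologicalSpace Y]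
  [CompactSpace Y] [MulAction Γ Y] [NormedAddCommGroup K] [InnerProductSpace ℂ K] [CompleteSpace K]

/-- The limits along `g b^N g⁻¹`. `Dm R T A` are the elements of `Γ` which are near-wall with
constant `R`, of size at least `T`, with attracting point in `A`. -/
structure LimG (b : D) (x₀ : X) (π : D →* (K →L[ℂ] K)) (lam : Γ →* (K →L[ℂ] K))
    (W : Set (K →L[ℂ] K)) (m : Set Γ → (K →L[ℂ] K)) (Dm : ℝ → ℝ → Set Y → Set Γ)
    (E₀ : D → (C(Y, ℂ) →⋆ₐ[ℂ] (K →L[ℂ] K))) : Prop where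
  cm : ∀ g f, Cm W (E₀ g f)
  cov : ∀ (γ : Γ) g (f f' : C(Y, ℂ)), (∀ y, f' (γ • y) = f y) →
    lam γ * E₀ g f * lam γ⁻¹ = E₀ g f'
  conj : ∀ v g f, π v * E₀ g f * π v⁻¹ = E₀ (v * g) f
  par : ∀ g : D, g • x₀ = x₀ → E₀ g = E₀ 1
  dom : ∀ (g : D) (u : C(Y, ℂ)) (A : Set Y), IsOpen A → tsupport u ⊆ A → ∀ ζ : K, ∀ ε > 0,
    ∃ R : ℝ, ∀ T > 0, ∀ᶠ N : ℕ in atTop,
      ‖E₀ g u ζ‖ ≤ ‖u‖ * ‖m (Dm R T A) (π (g * b ^ N * g⁻¹)⁻¹ ζ)‖ + ε

/-- The family of boundary calculi indexed by the homogeneous space `X`. -/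
structure FamG (b : D) (x₀ : X) (π : D →* (K →L[ℂ] K)) (lam : Γ →* (K →L[ℂ] K))
    (W : Set (K →L[ℂ] K)) (m : Set Γ → (K →L[ℂ] K)) (Dm : ℝ → ℝ → Set Y → Set Γ)
    (E : X → (C(Y, ℂ) →⋆ₐ[ℂ] (K →L[ℂ] K))) : Prop where
  cm : ∀ a f, Cm W (E a f)
  cov : ∀ (γ : Γ) a (f f' : C(Y, ℂ)), (∀ y, f' (γ • y) = f y) →
    lam γ * E a f * lam γ⁻¹ = E a f'
  pcov : ∀ g a f, π g * E a f * π g⁻¹ = E (g • a) f
  dom : ∀ (g : D) (u : C(Y, ℂ)) (A : Set Y), IsOpen A → tsupport u ⊆ A → ∀ ζ : K, ∀ ε > 0,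
    ∃ R : ℝ, ∀ T > 0, ∀ᶠ N : ℕ in atTop,
      ‖E (g • x₀) u ζ‖ ≤ ‖u‖ * ‖m (Dm R T A) (π (g * b ^ N * g⁻¹)⁻¹ ζ)‖ + ε

variable {b : D} {x₀ : X} {π : D →* (K →L[ℂ] K)} {lam : Γ →* (K →L[ℂ] K)}
  {W : Set (K →L[ℂ] K)} {m : Set Γ → (K →L[ℂ] K)} {Dm : ℝ → ℝ → Set Y → Set Γ}
  {E₀ : D → (C(Y, ℂ) →⋆ₐ[ℂ] (K →L[ℂ] K))}

/-- The limits depend only on the point. -/
theorem LimG.eq (h : LimG b x₀ π lam W m Dm E₀) {g g' : D} (hg : g • x₀ = g' • x₀) :
    E₀ g = E₀ g' := by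
  have h1 : (g'⁻¹ * g) • x₀ = x₀ := by
    rw [mul_smul, hg, inv_smul_smul]
  have h2 := h.par _ h1
  have h3 : ∀ f, E₀ (g' * (g'⁻¹ * g)) f = E₀ (g' * 1) f := by
    intro f
    rw [← h.conj g' (g'⁻¹ * g), ← h.conj g' 1, h2]
  refine StarAlgHom.ext fun f => ?_
  have h4 := h3 f
  rwa [mul_inv_cancel_left, mul_one] at h4

/-- The family of the boundary calculi. -/
noncomputable def fam (htr : ∀ a : X, ∃ g : D, g • x₀ = a)
    (E₀ : D → (C(Y, ℂ) →⋆ₐ[ℂ] (K →L[ℂ] K))) (a : X) : C(Y, ℂ) →⋆ₐ[ℂ] (K →L[ℂ] K) :=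
  E₀ (htr a).choose

theorem LimG.fam_eq (h : LimG b x₀ π lam W m Dm E₀) (htr : ∀ a : X, ∃ g : D, g • x₀ = a) (g : D) :
    fam htr E₀ (g • x₀) = E₀ g :=
  h.eq (htr (g • x₀)).choose_spec

/-- **Assembly.** -/
theorem LimG.famG (h : LimG b x₀ π lam W m Dm E₀) (htr : ∀ a : X, ∃ g : D, g • x₀ = a) :
    FamG b x₀ π lam W m Dm (fam htr E₀) where
  cm := fun a f => h.cm _ f
  cov := fun γ a f f' hf => h.cov γ _ f f' hf
  pcov := fun g a f => by
    obtain ⟨v, rfl⟩ := htr a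
    rw [h.fam_eq htr, ← mul_smul, h.fam_eq htr, h.conj]
  dom := fun g u A hA hu ζ ε hε => by
    rw [h.fam_eq htr]
    exact h.dom g u A hA hu ζ ε hε

end fam

end Vale.Agent.P092.H368.SN
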