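import Mathlib

/-!
P092 (helper368), TEAM N, block [N-ORB]: the modulus of a local field. If `μ` is an additive Haar
measure on `k` and `‖w‖ < 1`, the measure of a ball of radius `r * ‖w‖ ^ N` is at most
`C * ρ ^ N`, `ρ = mod w < 1`, for every nontrivially normed proper field (`ℝ`, `ℂ`, ultrametric, any
normalisation of the norm).
-/

set_option linter.all false

open MeasureTheory Filter Topology MeasureTheory.Measure Set
open scoped NNReal Pointwise ENNReal

namespace Vale.Agent.P092.H368.SN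

variable {k : Type} [NontriviallyNormedField k] [ProperSpace k]

/-- the modulus `mod w = μ (w S) / μ S` of a unit of `k` -/
noncomputable def md (w : kˣ) : ℝ := (distribHaarChar k w : ℝ≥0)

theorem md_pos (w : kˣ) : 0 < md w := by
  unfold md
  exact_mod_cast (distribHaarChar_pos (A := k) (g := w))

theorem md_nonneg (w : kˣ) : 0 ≤ md w := (md_pos w).le

theorem md_one : md (1 : kˣ) = 1 := by
  unfold md
  rw [map_one]
  rfl

theorem md_mul (w w' : kˣ) : md (w * w') = md w * md w' := by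
  unfold md
  rw [map_mul, NNReal.coe_mul]

theorem md_pow (w : kˣ) (N : ℕ) : md (w ^ N) = md w ^ N := by
  unfold md
  rw [map_pow, NNReal.coe_pow]

omit [ProperSpace k] in
theorem closedBall_subset_smul (w : kˣ) (r : ℝ) :
    Metric.closedBall (0 : k) (r * ‖(w : k)‖) ⊆ w • Metric.closedBall (0 : k) r := by
  intro x hx
  rw [mem_closedBall_zero_iff] at hx
  refine ⟨(((w⁻¹ : kˣ) : k)) * x, ?_, ?_⟩
  · rw [mem_closedBall_zero_iff, norm_mul, Units.val_inv_eq_inv_val, norm_inv]
    have hw : 0 < ‖(w : k)‖ := norm_pos_iff.2 w.ne_zero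
    rw [inv_mul_le_iff₀ hw]
    linarith
  · change w • ((((w⁻¹ : kˣ) : k)) * x) = x
    rw [Units.smul_def, smul_eq_mul, ← mul_assoc, ← Units.val_mul, mul_inv_cancel, Units.val_one,
      one_mul]

omit [ProperSpace k] in
theorem smul_subset_closedBall (w : kˣ) (r : ℝ) :
    w • Metric.closedBall (0 : k) r ⊆ Metric.closedBall (0 : k) (r * ‖(w : k)‖) := by
  rintro _ ⟨x, hx, rfl⟩
  rw [mem_closedBall_zero_iff] at hx ⊢
  change ‖w • x‖ ≤ _
  rw [Units.smul_def, smul_eq_mul, norm_mul, mul_comm]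
  exact mul_le_mul_of_nonneg_right hx (norm_nonneg _)

variable [MeasurableSpace k] [BorelSpace k] (μ : Measure k) [μ.IsAddHaarMeasure]

theorem measure_smul (w : kˣ) (s : Set k) : μ (w • s) = ENNReal.ofReal (md w) * μ s := by
  rw [← distribHaarChar_mul μ w s, md, ENNReal.ofReal_coe_nnreal]

omit [ProperSpace k] in
theorem measure_closedBall_center (s₀ : k) (r : ℝ) :
    μ (Metric.closedBall s₀ r) = μ (Metric.closedBall 0 r) := by
  rw [← measure_preimage_add μ s₀ (Metric.closedBall s₀ r)]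
  congr 1
  ext x
  simp [Metric.mem_closedBall, dist_eq_norm]

theorem measure_ball_zero (w : kˣ) (N : ℕ) (r : ℝ) :
    μ (Metric.closedBall (0 : k) (r * ‖(w : k)‖ ^ N)) ≤
      ENNReal.ofReal ((μ (Metric.closedBall (0 : k) r)).toReal * md w ^ N) := by
  have hfin : μ (Metric.closedBall (0 : k) r) ≠ ∞ :=
    (isCompact_closedBall (0 : k) r).measure_ne_top
  have h1 : Metric.closedBall (0 : k) (r * ‖(w : k)‖ ^ N) ⊆
      (w ^ N) • Metric.closedBall (0 : k) r := by
    have h2 := closedBall_subset_smul (w ^ N) r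
    rwa [Units.val_pow_eq_pow_val, norm_pow] at h2
  refine (measure_mono h1).trans ?_
  rw [measure_smul μ (w ^ N), md_pow, ENNReal.ofReal_mul ENNReal.toReal_nonneg,
    ENNReal.ofReal_toReal hfin, mul_comm]

/-- **The modulus lemma.** -/
theorem measure_ball (w : kˣ) (r : ℝ) :
    ∃ C : ℝ, 0 ≤ C ∧ ∀ (s₀ : k) (N : ℕ),
      μ (Metric.closedBall s₀ (r * ‖(w : k)‖ ^ N)) ≤ ENNReal.ofReal (C * md w ^ N) :=
  ⟨_, ENNReal.toReal_nonneg, fun s₀ N => by
    rw [measure_closedBall_center]
    exact measure_ball_zero μ w N r⟩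

omit [MeasurableSpace k] [BorelSpace k] in
/-- `mod w < 1` if `‖w‖ < 1` -/
theorem md_lt_one {w : kˣ} (hw : ‖(w : k)‖ < 1) : md w < 1 := by
  borelize k
  obtain ⟨μ, hμ⟩ : ∃ μ : Measure k, μ = addHaar := ⟨_, rfl⟩
  haveI : μ.IsAddHaarMeasure := by rw [hμ]; infer_instance
  have hw0 : 0 < ‖(w : k)‖ := norm_pos_iff.2 w.ne_zero
  by_contra hcon
  rw [not_lt] at hcon
  have hpos : 0 < μ (Metric.closedBall (0 : k) 1) :=
    Metric.measure_closedBall_pos μ 0 one_pos
  have hfin : μ (Metric.closedBall (0 : k) 1) ≠ ∞ :=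
    (isCompact_closedBall (0 : k) 1).measure_ne_top
  have hanti : Antitone fun N : ℕ => Metric.closedBall (0 : k) (1 * ‖(w : k)‖ ^ N) := by
    intro N N' hN
    refine Metric.closedBall_subset_closedBall ?_
    exact mul_le_mul_of_nonneg_left (pow_le_pow_of_le_one hw0.le hw.le hN) zero_le_one
  have hlim := tendsto_measure_iInter_atTop (μ := μ)
    (s := fun N : ℕ => Metric.closedBall (0 : k) (1 * ‖(w : k)‖ ^ N))
    (fun N => Metric.isClosed_closedBall.nullMeasurableSet) hanti
    ⟨0, (isCompact_closedBall (0 : k) _).measure_ne_top⟩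
  have hint : (⋂ N : ℕ, Metric.closedBall (0 : k) (1 * ‖(w : k)‖ ^ N)) = {0} := by
    ext x
    rw [mem_iInter, mem_singleton_iff]
    constructor
    · intro hx
      have h1 : Tendsto (fun N : ℕ => 1 * ‖(w : k)‖ ^ N) atTop (𝓝 0) := by
        have := (tendsto_pow_atTop_nhds_zero_of_lt_one hw0.le hw).const_mul (1 : ℝ)
        rwa [mul_zero] at this
      have h2 : ‖x‖ ≤ 0 := ge_of_tendsto' h1 fun N => by
        have := hx N
        rwa [mem_closedBall_zero_iff] at this
      exact norm_le_zero_iff.1 h2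
    · rintro rfl N
      rw [mem_closedBall_zero_iff, norm_zero]
      positivity
  rw [hint, measure_singleton] at hlim
  have hge : ∀ N : ℕ, μ (Metric.closedBall (0 : k) 1) ≤
      μ (Metric.closedBall (0 : k) (1 * ‖(w : k)‖ ^ N)) := by
    intro N
    have h2 := smul_subset_closedBall (w ^ N) (1 : ℝ)
    rw [Units.val_pow_eq_pow_val, norm_pow] at h2
    refine le_trans ?_ (measure_mono h2)
    rw [measure_smul μ (w ^ N), md_pow]
    refine le_mul_of_one_le_left zero_le ?_
    rw [← ENNReal.ofReal_one]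
    exact ENNReal.ofReal_le_ofReal (one_le_pow₀ hcon)
  have h3 := ge_of_tendsto' hlim hge
  exact hpos.ne' (le_antisymm h3 zero_le)

end Vale.Agent.P092.H368.SN
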