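import Vale.Agent.P092.H103.Orb
import Vale.Agent.P092.H790.CTA
import Vale.Agent.P092.H368.SN.Mod

/-!
P092 (helper368), TEAM N, block [N-ORB]: `CTA.ORBG` for the induced picture of a lattice in an
arbitrary locally compact second countable group `E`, an element `b` and a family `n` expanded by
`b`. The hypothesis `Spr` is proved for one-parameter groups over every local field.
-/

set_option linter.all false

open scoped InnerProductSpace ENNReal
open Set Filter Topology MeasureTheory ContinuousLinearMap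

namespace Vale.Agent.P092.H368.SN

open Vale.Agent.P092.H790 Vale.Agent.P092.H85 Vale.Agent.P092.H160 Vale.Agent.P092.H103
open Vale.Agent.P092.RC (Cm TRN)
open Vale.Agent.P092.H790.CTA (ORBG)

/-- The family `n` is spread out by `b`, at rate `ρ`: the parameters `s` for which
`b ^ N * n s` and `b ^ N * n s₀` differ by an element of a compact set have measure at most
`C * ρ ^ N`. -/
def Spr {E P : Type} [Group E] [TopologicalSpace E] [MeasurableSpace P] (μ : Measure P) (b : E)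
    (n : P → E) (ρ : ℝ) : Prop :=
  ∀ C : Set E, IsCompact C → ∃ c : ℝ, ∀ (N : ℕ) (s₀ : P),
    μ {s | b ^ N * n s * (b ^ N * n s₀)⁻¹ ∈ C} ≤ ENNReal.ofReal (c * ρ ^ N)

section gen

variable {E : Type} [Group E] [TopologicalSpace E] [IsTopologicalGroup E] [LocallyCompactSpace E]
  [SecondCountableTopology E] [T2Space E] [MeasurableSpace E] [BorelSpace E]
  {Λ : Subgroup E} [DiscreteTopology Λ] [MeasurableSpace (E ⧸ Λ)] [BorelSpace (E ⧸ Λ)]
  {ν : Measure (E ⧸ Λ)} [IsProbabilityMeasure ν] (hν : ∀ g : E, ν.map (fun x => g • x) = ν)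
  {K : Type} [NormedAddCommGroup K] [InnerProductSpace ℂ K] [CompleteSpace K]
  {V : Λ →* (K →L[ℂ] K)} (hVa : ∀ v, adjoint (V v) = V v⁻¹) [Countable Λ]
  {P : Type} [NormedAddCommGroup P] [ProperSpace P] [MeasurableSpace P] [BorelSpace P]
  {μ : Measure P} [IsFiniteMeasureOnCompacts μ]

/-- **(ORB) for the induced picture**, any group. -/
theorem orbg_of {Γ S : Type} [Group Γ] [Countable Γ]
    [Countable S] {b : E} {n : P → E} {ρ : ℝ} (hn : Continuous n) (hspr : Spr μ b n ρ)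
    {W : Set (Lp K 2 ν →L[ℂ] Lp K 2 ν)}
    (hW : ∀ A : Set (E ⧸ Λ), MeasurableSet A → H790.ind ν K A ∈ W) {T : S → K →L[ℂ] K}
    (hWT : ∀ s, (T s).compLpL 2 ν ∈ W) {ω : K} (hω : ‖ω‖ ≤ 1)
    {lam : Γ →* (Lp K 2 ν →L[ℂ] Lp K 2 ν)} {d : Γ → K} (hd : ∀ k, lam k (cst ν ω) = cst ν (d k))
    (hO : Orthonormal ℂ fun p : Λ × S => T p.2 (V p.1 ω))
    (hpar : ∀ y : K, ‖y‖ₑ ^ 2 ≤ ∑' (k : Γ) (s : S), ‖⟪d k, T s y⟫_ℂ‖ₑ ^ 2)
    (htr : ∀ T', Cm W T' → TRN lam (cst ν ω) (adjoint T') = TRN lam (cst ν ω) T') :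
    ORBG μ b n ρ (irep hν hVa) lam W (cst ν ω) := by
  intro g δ hδ
  -- the measure on the unit ball
  obtain ⟨μ', hμ'⟩ : ∃ μ' : Measure P, μ' = μ.restrict (Metric.closedBall (0 : P) 1) := ⟨_, rfl⟩
  have hmt : μ' univ ≠ ∞ := by
    rw [hμ', Measure.restrict_apply_univ]
    exact (isCompact_closedBall (0 : P) 1).measure_ne_top
  haveI : IsFiniteMeasure μ' := ⟨lt_top_iff_ne_top.2 hmt⟩
  obtain ⟨M, hM⟩ : ∃ M : ℝ, M = (μ' univ).toReal := ⟨_, rfl⟩
  have hM0 : 0 ≤ M := by rw [hM]; exact ENNReal.toReal_nonneg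
  have hμu : μ' univ = ENNReal.ofReal M := by rw [hM, ENNReal.ofReal_toReal hmt]
  obtain ⟨X₀, hX₀c, hX₀m, hX₀⟩ := exists_compact_large Λ ν
    (show 0 < δ / (M + 1) by positivity)
  obtain ⟨C₀, hC₀, hsC₀⟩ := sec_bdd Λ X₀ hX₀c
  have hCC : IsCompact ((fun p : E × E => p.1 * p.2⁻¹) '' (C₀ ×ˢ C₀)) :=
    (hC₀.prod hC₀).image (by fun_prop)
  have hCg : IsCompact ((fun h : E => g⁻¹ * h * g) ''
      ((fun p : E × E => p.1 * p.2⁻¹) '' (C₀ ×ˢ C₀))) := hCC.image (by fun_prop)
  obtain ⟨c, hc⟩ := hspr _ hCg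
  refine ⟨c, fun N T' hT' hT'1 => ?_⟩
  have hTd : Dcp T' := fun A hA => hT' _ (hW A hA)
  obtain ⟨φ, hφ⟩ : ∃ φ : P → E, φ = fun s => g * b ^ N * n s * g⁻¹ := ⟨_, rfl⟩
  have hφm : Measurable φ := by
    rw [hφ]
    exact ((continuous_const.mul hn).mul continuous_const).measurable
  have hm : ∀ (x : E ⧸ Λ) (v : Λ), μ' {s | (coc Λ (φ s) x)⁻¹ = v ∧
      φ s • x ∈ X₀} ≤ ENNReal.ofReal (c * ρ ^ N) := by
    refine mult_param hsC₀ fun s₀ => ?_
    calc μ' {s | φ s * (φ s₀)⁻¹ ∈ (fun p : E × E => p.1 * p.2⁻¹) '' (C₀ ×ˢ C₀)}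
        ≤ μ {s | φ s * (φ s₀)⁻¹ ∈ (fun p : E × E => p.1 * p.2⁻¹) '' (C₀ ×ˢ C₀)} := by
          rw [hμ']
          exact Measure.restrict_apply_le _ _
      _ ≤ μ {s | b ^ N * n s * (b ^ N * n s₀)⁻¹ ∈ (fun h : E => g⁻¹ * h * g) ''
            ((fun p : E × E => p.1 * p.2⁻¹) '' (C₀ ×ˢ C₀))} := by
          refine measure_mono fun s hs => ⟨_, hs, ?_⟩
          rw [hφ]
          group
      _ ≤ _ := hc N s₀
  have h1 := main_param hν hVa hφm hTd hω hX₀m hm
  have h2 := hs_le (V := V) hO hpar hTd (fun s => hT' _ (hWT s))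
  have h3 : ∑' k : Γ, ‖adjoint T' (cst ν (d k))‖ₑ ^ 2 = TRN lam (cst ν ω) T' := by
    rw [← htr T' hT', TRN]
    simp_rw [hd]
  rw [h3] at h2
  have h4 : ‖T'‖ₑ ^ 2 * ν X₀ᶜ * μ' univ ≤ ENNReal.ofReal δ := by
    have a1 : ‖T'‖ₑ ≤ 1 := by
      rw [← ofReal_norm, ← ENNReal.ofReal_one]
      exact ENNReal.ofReal_le_ofReal hT'1
    calc ‖T'‖ₑ ^ 2 * ν X₀ᶜ * μ' univ
        ≤ 1 ^ 2 * ENNReal.ofReal (δ / (M + 1)) * ENNReal.ofReal M := by
          rw [hμu]
          gcongr
          rw [← ofReal_measureReal]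
          exact ENNReal.ofReal_le_ofReal hX₀
      _ = ENNReal.ofReal (δ / (M + 1) * M) := by
          rw [one_pow, one_mul, ← ENNReal.ofReal_mul (by positivity)]
      _ ≤ ENNReal.ofReal δ := by
          refine ENNReal.ofReal_le_ofReal ?_
          rw [div_mul_eq_mul_div, div_le_iff₀ (by positivity)]
          nlinarith
  have h5 : ∫⁻ s in Metric.closedBall (0 : P) 1,
      ‖T' (irep hν hVa (g * b ^ N * n s * g⁻¹)⁻¹ (cst ν ω))‖ₑ ^ 2 ∂μ =
      ∫⁻ s, ‖T' (iro hν V (φ s)⁻¹ (cst ν ω))‖ₑ ^ 2 ∂μ' := by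
    rw [hμ', hφ]
    rfl
  rw [h5]
  refine h1.trans (add_le_add ?_ h4)
  gcongr

end gen

/-! ### One-parameter groups -/

section one

variable {E : Type} [Group E] [TopologicalSpace E]
  {k : Type} [NontriviallyNormedField k] [ProperSpace k]

omit [ProperSpace k] in
theorem pow_conj {b : E} {n : k → E} {c : k} (hb : ∀ s, b * n s = n (c * s) * b) (N : ℕ) (s : k) :
    b ^ N * n s = n (c ^ N * s) * b ^ N := by
  induction N generalizing s with
  | zero => simp
  | succ N ih =>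
    rw [pow_succ, mul_assoc, hb, ← mul_assoc, ih, mul_assoc]
    congr 2
    ring

/-- **A proper one-parameter group expanded by `b` is spread out**, over every local field; the
rate is the modulus of the inverse of the factor. -/
theorem spr_of [MeasurableSpace k] [BorelSpace k] {μ : Measure k} [μ.IsAddHaarMeasure] {b : E}
    {n : k → E} (w : kˣ) (hadd : ∀ s t, n s * (n t)⁻¹ = n (s - t))
    (hb : ∀ s, b * n s = n (((w⁻¹ : kˣ) : k) * s) * b)
    (hprop : ∀ C : Set E, IsCompact C → ∃ r : ℝ, ∀ s, n s ∈ C → ‖s‖ ≤ r) :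
    Spr μ b n (md w) := by
  intro C hC
  obtain ⟨r, hr⟩ := hprop C hC
  obtain ⟨c, hc0, hc⟩ := measure_ball μ w r
  refine ⟨c, fun N s₀ => (measure_mono fun s hs => ?_).trans (hc s₀ N)⟩
  have e1 : b ^ N * n s * (b ^ N * n s₀)⁻¹ = n (((w⁻¹ : kˣ) : k) ^ N * (s - s₀)) := by
    have e2 : b ^ N * n s * (b ^ N * n s₀)⁻¹ = b ^ N * (n s * (n s₀)⁻¹) * (b ^ N)⁻¹ := by
      rw [mul_inv_rev]
      simp only [mul_assoc]
    rw [e2, hadd, pow_conj hb, mul_inv_cancel_right]
  have hs' : n (((w⁻¹ : kˣ) : k) ^ N * (s - s₀)) ∈ C := by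
    rw [← e1]
    exact hs
  have h1 := hr _ hs'
  rw [norm_mul, norm_pow, Units.val_inv_eq_inv_val, norm_inv, inv_pow] at h1
  have hw : 0 < ‖(w : k)‖ ^ N := pow_pos (norm_pos_iff.2 w.ne_zero) N
  rw [inv_mul_le_iff₀ hw] at h1
  rw [Metric.mem_closedBall, dist_eq_norm]
  linarith

/-- images under a homomorphism `p : E → E'` with `p⁻¹` of compact sets compact -/
theorem prop_comp {E' : Type} [Group E'] [TopologicalSpace E'] {n : k → E} {p : E →* E'}
    (hp : ∀ C : Set E', IsCompact C → ∃ C' : Set E, IsCompact C' ∧ p ⁻¹' C ⊆ C')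
    (hprop : ∀ C : Set E, IsCompact C → ∃ r : ℝ, ∀ s, n s ∈ C → ‖s‖ ≤ r) :
    ∀ C : Set E', IsCompact C → ∃ r : ℝ, ∀ s, p (n s) ∈ C → ‖s‖ ≤ r := by
  intro C hC
  obtain ⟨C', hC', hsub⟩ := hp C hC
  obtain ⟨r, hr⟩ := hprop C' hC'
  exact ⟨r, fun s hs => hr s (hsub hs)⟩

end one

/-! ### Root groups of `SL_n(k)` -/

section sl

variable {k : Type} [NontriviallyNormedField k] [ProperSpace k] {ι : Type} [Fintype ι]
  [DecidableEq ι] {i j : ι}

/-- the root group `1 + s E_ij` -/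
def tv (hij : i ≠ j) (s : k) : Matrix.SpecialLinearGroup ι k :=
  Matrix.SpecialLinearGroup.transvection hij s

omit [ProperSpace k] in
theorem tv_coe (hij : i ≠ j) (s : k) :
    (tv hij s : Matrix.SpecialLinearGroup ι k).1 = Matrix.transvection i j s := rfl

omit [ProperSpace k] in
theorem tv_add (hij : i ≠ j) (s t : k) :
    (tv hij s : Matrix.SpecialLinearGroup ι k) * tv hij t = tv hij (s + t) := by
  apply Subtype.ext
  exact Matrix.transvection_mul_transvection_same i j hij s t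

omit [ProperSpace k] in
theorem tv_zero (hij : i ≠ j) : (tv hij 0 : Matrix.SpecialLinearGroup ι k) = 1 := by
  apply Subtype.ext
  exact Matrix.transvection_zero i j

omit [ProperSpace k] in
theorem tv_inv (hij : i ≠ j) (s : k) : (tv hij s : Matrix.SpecialLinearGroup ι k)⁻¹ = tv hij (-s) := by
  rw [inv_eq_iff_mul_eq_one, tv_add, add_neg_cancel, tv_zero]

omit [ProperSpace k] in
theorem tv_sub (hij : i ≠ j) (s t : k) :
    (tv hij s : Matrix.SpecialLinearGroup ι k) * (tv hij t)⁻¹ = tv hij (s - t) := by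
  rw [tv_inv, tv_add, sub_eq_add_neg]

omit [ProperSpace k] in
theorem tv_entry (hij : i ≠ j) (s : k) : (tv hij s : Matrix.SpecialLinearGroup ι k).1 i j = s := by
  rw [tv_coe, Matrix.transvection]
  simp [Matrix.single_apply, hij]

omit [ProperSpace k] in
theorem continuous_tv (hij : i ≠ j) :
    Continuous fun s : k => (tv hij s : Matrix.SpecialLinearGroup ι k) := by
  refine continuous_induced_rng.2 ?_
  change Continuous fun s : k => (Matrix.transvection i j s : Matrix ι ι k)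
  simp only [Matrix.transvection]
  refine continuous_const.add ?_
  refine continuous_pi fun a => continuous_pi fun b => ?_
  simp only [Matrix.single_apply]
  split_ifs
  · exact continuous_id
  · exact continuous_const

omit [ProperSpace k] in
/-- `diag(d) * (1 + s E_ij) = (1 + d_i s d_j⁻¹ E_ij) * diag(d)` -/
theorem diag_tv (hij : i ≠ j) {b : Matrix.SpecialLinearGroup ι k} {d : ι → k}
    (hb : b.1 = Matrix.diagonal d) {c : k} (hc : d i = c * d j) (s : k) :
    b * tv hij s = tv hij (c * s) * b := by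
  apply Subtype.ext
  rw [Matrix.SpecialLinearGroup.coe_mul, Matrix.SpecialLinearGroup.coe_mul]
  change b.1 * (tv hij s : Matrix.SpecialLinearGroup ι k).1 =
    (tv hij (c * s) : Matrix.SpecialLinearGroup ι k).1 * b.1
  rw [hb, tv_coe, tv_coe]
  ext x y
  rw [Matrix.diagonal_mul, Matrix.mul_diagonal, Matrix.transvection, Matrix.transvection,
    Matrix.add_apply, Matrix.add_apply, Matrix.single_apply, Matrix.single_apply,
    Matrix.one_apply]
  by_cases hxy : x = y
  · subst hxy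
    have h1 : ¬ (i = x ∧ j = x) := fun h => hij (h.1.trans h.2.symm)
    rw [if_pos rfl, if_neg h1, if_neg h1, add_zero, mul_one, one_mul]
  · rw [if_neg hxy]
    by_cases h1 : i = x ∧ j = y
    · rw [if_pos h1, if_pos h1, zero_add, zero_add, ← h1.1, ← h1.2, hc]
      ring
    · rw [if_neg h1, if_neg h1]
      simp

omit [ProperSpace k] in
theorem tv_prop (hij : i ≠ j) (C : Set (Matrix.SpecialLinearGroup ι k)) (hC : IsCompact C) :
    ∃ r : ℝ, ∀ s : k, (tv hij s : Matrix.SpecialLinearGroup ι k) ∈ C → ‖s‖ ≤ r := by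
  have hent : Continuous fun h : Matrix.SpecialLinearGroup ι k => h.1 i j :=
    (continuous_apply_apply i j).comp continuous_subtype_val
  obtain ⟨r, hr⟩ := hC.exists_bound_of_continuousOn hent.continuousOn
  refine ⟨r, fun s hs => ?_⟩
  have := hr _ hs
  rwa [tv_entry] at this

/-- **(ORB) data for every wall or diagonal element of `SL_n(k)`** and every root group it expands:
`d i = w⁻¹ * d j`, `‖w‖ < 1`; the rate is `md w < 1`. -/
theorem spr_sl [MeasurableSpace k] [BorelSpace k] {μ : Measure k} [μ.IsAddHaarMeasure]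
    (hij : i ≠ j) {b : Matrix.SpecialLinearGroup ι k} {d : ι → k}
    (hb : b.1 = Matrix.diagonal d) (w : kˣ) (hw : d i = ((w⁻¹ : kˣ) : k) * d j) :
    Spr μ b (tv hij) (md w) :=
  spr_of w (tv_sub hij) (diag_tv hij hb hw) (tv_prop hij)

/-- the same for the image in a group `E` under a homomorphism with relatively compact preimages of
compact sets (`E = PSL_n(k)`, ..) -/
theorem spr_map [MeasurableSpace k] [BorelSpace k] {μ : Measure k} [μ.IsAddHaarMeasure]
    {E : Type} [Group E] [TopologicalSpace E] {p : Matrix.SpecialLinearGroup ι k →* E}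
    (hp : ∀ C : Set E, IsCompact C → ∃ C' : Set (Matrix.SpecialLinearGroup ι k),
      IsCompact C' ∧ p ⁻¹' C ⊆ C')
    (hij : i ≠ j) {b : Matrix.SpecialLinearGroup ι k} {d : ι → k}
    (hb : b.1 = Matrix.diagonal d) (w : kˣ) (hw : d i = ((w⁻¹ : kˣ) : k) * d j) :
    Spr μ (p b) (fun s => p (tv hij s)) (md w) :=
  spr_of w (fun s t => by rw [← map_inv, ← map_mul, tv_sub])
    (fun s => by rw [← map_mul, ← map_mul, diag_tv hij hb hw]) (prop_comp hp (tv_prop hij))

end sl

end Vale.Agent.P092.H368.SN
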